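import Mathlib

/-! Elementary real inequalities for the propeller bound: quartic certificates, cells, tails. -/

namespace Crest.Agent.R215

/-- the quartic `(1-ν²)² + e ν² + b ν` -/
def qf (e b ν : ℝ) : ℝ := (1 - ν ^ 2) ^ 2 + e * ν ^ 2 + b * ν

/-- its derivative -/
def dqf (e b ν : ℝ) : ℝ := 4 * ν ^ 3 - 2 * (2 - e) * ν + b

/-- certificate that `qf e b ≤ K` on `[α, β]` -/
def QOK (e b K α β n γ : ℝ) : Prop :=
  0 ≤ α ∧ 0 ≤ γ ∧ qf e b γ ≤ K ∧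
    (γ ≤ α ∨ (0 ≤ n ∧ γ ^ 2 + 2 * n * γ + 3 * n ^ 2 - (2 - e) ≤ 0 ∧
      qf e b n + dqf e b n * (α - n) ≤ K ∧ qf e b n + dqf e b n * (γ - n) ≤ K)) ∧
    (β ≤ γ ∨ (2 - e ≤ 6 * γ ^ 2 ∧ qf e b β ≤ K))

theorem qf_le_of_QOK {e b K α β n γ ν : ℝ} (h : QOK e b K α β n γ) (h1 : α ≤ ν) (h2 : ν ≤ β) :
    qf e b ν ≤ K := by
  obtain ⟨hα, hγ, hqγ, hp1, hp2⟩ := h
  have hν : 0 ≤ ν := hα.trans h1
  rcases le_total ν γ with hle | hge
  · rcases hp1 with hga | ⟨hn, hR, hl1, hl2⟩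
    · have : ν = γ := le_antisymm hle (hga.trans h1)
      rw [this]; exact hqγ
    · have hid : qf e b ν = qf e b n + dqf e b n * (ν - n) +
          (ν - n) ^ 2 * (ν ^ 2 + 2 * n * ν + 3 * n ^ 2 - (2 - e)) := by
        unfold qf dqf; ring
      have hRν : ν ^ 2 + 2 * n * ν + 3 * n ^ 2 - (2 - e) ≤ 0 := by
        have h3 : ν ^ 2 ≤ γ ^ 2 := pow_le_pow_left₀ hν hle 2
        have h4 : n * ν ≤ n * γ := mul_le_mul_of_nonneg_left hle hn
        linarith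
      have h5 : (ν - n) ^ 2 * (ν ^ 2 + 2 * n * ν + 3 * n ^ 2 - (2 - e)) ≤ 0 :=
        mul_nonpos_of_nonneg_of_nonpos (sq_nonneg _) hRν
      have h6 : qf e b n + dqf e b n * (ν - n) ≤ K := by
        rcases le_total 0 (dqf e b n) with hd | hd
        · have : dqf e b n * (ν - n) ≤ dqf e b n * (γ - n) :=
            mul_le_mul_of_nonneg_left (by linarith) hd
          linarith
        · have : dqf e b n * (ν - n) ≤ dqf e b n * (α - n) :=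
            mul_le_mul_of_nonpos_left (by linarith) hd
          linarith
      linarith
  · rcases hp2 with hb | ⟨hA, hqβ⟩
    · have : ν = γ := le_antisymm (h2.trans hb) hge
      rw [this]; exact hqγ
    · rcases eq_or_lt_of_le (hge.trans h2) with heq | hlt
      · have : ν = γ := le_antisymm (heq ▸ h2) hge
        rw [this]; exact hqγ
      · have hid : (β - γ) * qf e b ν = (β - ν) * qf e b γ + (ν - γ) * qf e b β -
            (β - γ) * ((ν - γ) * (β - ν)) *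
              (ν ^ 2 + γ ^ 2 + β ^ 2 + ν * γ + ν * β + γ * β - (2 - e)) := by
          unfold qf; ring
        have hγβ : γ ≤ β := hlt.le
        have hdd : 0 ≤ ν ^ 2 + γ ^ 2 + β ^ 2 + ν * γ + ν * β + γ * β - (2 - e) := by
          have a1 : γ ^ 2 ≤ ν ^ 2 := pow_le_pow_left₀ hγ hge 2
          have a2 : γ ^ 2 ≤ β ^ 2 := pow_le_pow_left₀ hγ hγβ 2
          have a3 : γ * γ ≤ ν * γ := mul_le_mul_of_nonneg_right hge hγ
          have a4 : γ * γ ≤ ν * β := mul_le_mul hge hγβ hγ hν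
          have a5 : γ * γ ≤ γ * β := mul_le_mul_of_nonneg_left hγβ hγ
          nlinarith
        have h7 : 0 ≤ (β - γ) * ((ν - γ) * (β - ν)) *
              (ν ^ 2 + γ ^ 2 + β ^ 2 + ν * γ + ν * β + γ * β - (2 - e)) :=
          mul_nonneg (mul_nonneg (by linarith) (mul_nonneg (by linarith) (by linarith))) hdd
        have h8 : (β - ν) * qf e b γ ≤ (β - ν) * K := mul_le_mul_of_nonneg_left hqγ (by linarith)
        have h9 : (ν - γ) * qf e b β ≤ (ν - γ) * K := mul_le_mul_of_nonneg_left hqβ (by linarith)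
        have h10 : (β - γ) * qf e b ν ≤ (β - γ) * K := by linarith
        exact le_of_mul_le_mul_left h10 (by linarith)

/-- `t = (1-ν²)² + ε ν² + ε²/4` with `ν ∈ [0,1]` -/
def Cell (t ε ν : ℝ) : Prop :=
  0 ≤ ν ∧ ν ≤ 1 ∧ t = (1 - ν ^ 2) ^ 2 + ε * ν ^ 2 + ε ^ 2 / 4

/-- numeric certificate for one cell -/
def CellOK (lo hi em θ b c K νlo νhi n0 γ0 n1 γ1 : ℝ) : Prop :=
  0 < θ ∧ 0 ≤ νlo ∧ νlo ≤ 1 ∧ 0 ≤ νhi ∧ hi ≤ (1 - νlo ^ 2) ^ 2 ∧
    (1 ≤ νhi ∨ ((1 - νhi ^ 2) ^ 2 + em * νhi ^ 2 + em ^ 2 / 4 < lo ∧ em + em ^ 2 / 4 < lo)) ∧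
    QOK 0 (b / θ) (K / θ) νlo νhi n0 γ0 ∧
    QOK em (b / θ) ((K + c * em) / θ - em ^ 2 / 4) νlo νhi n1 γ1

theorem cell_bound {t ε ν lo hi em θ b c K νlo νhi n0 γ0 n1 γ1 : ℝ}
    (hok : CellOK lo hi em θ b c K νlo νhi n0 γ0 n1 γ1)
    (hc : Cell t ε ν) (hε0 : 0 ≤ ε) (hε : ε ≤ em) (hlo : lo ≤ t) (hhi : t ≤ hi) :
    θ * t + b * ν - c * ε ≤ K := by
  obtain ⟨hθ, hl0, hl1, hh0, hhiν, hloν, hq0, hq1⟩ := hok
  obtain ⟨hν0, hν1, ht⟩ := hc
  have hem : 0 ≤ em := hε0.trans hε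
  have hνlo : νlo ≤ ν := by
    by_contra hcon
    push Not at hcon
    have a1 : ν ^ 2 < νlo ^ 2 := pow_lt_pow_left₀ hcon hν0 (by norm_num)
    have a2 : νlo ^ 2 ≤ 1 := pow_le_one₀ hl0 hl1
    have a3 : (1 - νlo ^ 2) ^ 2 < (1 - ν ^ 2) ^ 2 :=
      pow_lt_pow_left₀ (by linarith) (by linarith) (by norm_num)
    have a4 : 0 ≤ ε * ν ^ 2 := mul_nonneg hε0 (sq_nonneg _)
    have a5 : 0 ≤ ε ^ 2 / 4 := by positivity
    linarith
  have hνhi : ν ≤ νhi := by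
    rcases hloν with h | ⟨hA, hB⟩
    · exact hν1.trans h
    · by_contra hcon
      push Not at hcon
      have a1 : νhi ^ 2 < ν ^ 2 := pow_lt_pow_left₀ hcon hh0 (by norm_num)
      have a2 : ν ^ 2 ≤ 1 := pow_le_one₀ hν0 hν1
      have a3 : ε * ν ^ 2 ≤ em * ν ^ 2 := mul_le_mul_of_nonneg_right hε (sq_nonneg _)
      have a4 : ε ^ 2 ≤ em ^ 2 := pow_le_pow_left₀ hε0 hε 2
      set z := ν ^ 2 with hz
      set w := νhi ^ 2 with hw
      have hw1 : w < 1 := lt_of_lt_of_le a1 a2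
      have hid : (1 - w) * ((1 - z) ^ 2 + em * z + em ^ 2 / 4) =
          (1 - z) * ((1 - w) ^ 2 + em * w + em ^ 2 / 4) + (z - w) * (em + em ^ 2 / 4) -
            (1 - w) * ((z - w) * (1 - z)) := by ring
      have b1 : 0 ≤ (1 - w) * ((z - w) * (1 - z)) :=
        mul_nonneg (by linarith) (mul_nonneg (by linarith) (by linarith))
      have b2 : (1 - z) * ((1 - w) ^ 2 + em * w + em ^ 2 / 4) ≤ (1 - z) * lo :=
        mul_le_mul_of_nonneg_left hA.le (by linarith)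
      have b3 : (z - w) * (em + em ^ 2 / 4) < (z - w) * lo :=
        mul_lt_mul_of_pos_left hB (by linarith)
      have b4 : (1 - w) * ((1 - z) ^ 2 + em * z + em ^ 2 / 4) < (1 - w) * lo := by linarith
      have b5 := lt_of_mul_lt_mul_left b4 (by linarith)
      linarith
  have e0 := qf_le_of_QOK hq0 hνlo hνhi
  have e1 := qf_le_of_QOK hq1 hνlo hνhi
  unfold qf at e0 e1
  have f0 : θ * (1 - ν ^ 2) ^ 2 + b * ν ≤ K := by
    have := mul_le_mul_of_nonneg_left e0 hθ.le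
    have h2 : θ * ((1 - ν ^ 2) ^ 2 + 0 * ν ^ 2 + b / θ * ν) = θ * (1 - ν ^ 2) ^ 2 + b * ν := by
      field_simp; ring
    have h3 : θ * (K / θ) = K := by field_simp
    linarith
  have f1 : θ * ((1 - ν ^ 2) ^ 2 + em * ν ^ 2 + em ^ 2 / 4) + b * ν - c * em ≤ K := by
    have := mul_le_mul_of_nonneg_left e1 hθ.le
    have h2 : θ * ((1 - ν ^ 2) ^ 2 + em * ν ^ 2 + b / θ * ν) =
        θ * ((1 - ν ^ 2) ^ 2 + em * ν ^ 2) + b * ν := by
      field_simp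
    have h3 : θ * ((K + c * em) / θ - em ^ 2 / 4) = K + c * em - θ * (em ^ 2 / 4) := by
      field_simp
    linarith
  rcases eq_or_lt_of_le hem with h0 | hpos
  · have : ε = 0 := le_antisymm (h0 ▸ hε) hε0
    subst this
    rw [ht]; simpa using f0
  · have g1 : θ * t + b * ν - c * ε ≤
        θ * (1 - ν ^ 2) ^ 2 + b * ν + ε * (θ * (ν ^ 2 + em / 4) - c) := by
      have : ε ^ 2 ≤ ε * em := by rw [sq]; exact mul_le_mul_of_nonneg_left hε hε0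
      have h4 : θ * (ε ^ 2 / 4) ≤ θ * (ε * em / 4) :=
        mul_le_mul_of_nonneg_left (by linarith) hθ.le
      rw [ht]; nlinarith
    have g2 : em * (θ * (1 - ν ^ 2) ^ 2 + b * ν + ε * (θ * (ν ^ 2 + em / 4) - c)) =
        (em - ε) * (θ * (1 - ν ^ 2) ^ 2 + b * ν) +
          ε * (θ * ((1 - ν ^ 2) ^ 2 + em * ν ^ 2 + em ^ 2 / 4) + b * ν - c * em) := by ring
    have g3 : (em - ε) * (θ * (1 - ν ^ 2) ^ 2 + b * ν) ≤ (em - ε) * K :=
      mul_le_mul_of_nonneg_left f0 (by linarith)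
    have g4 : ε * (θ * ((1 - ν ^ 2) ^ 2 + em * ν ^ 2 + em ^ 2 / 4) + b * ν - c * em) ≤ ε * K :=
      mul_le_mul_of_nonneg_left f1 hε0
    have g5 : em * (θ * (1 - ν ^ 2) ^ 2 + b * ν + ε * (θ * (ν ^ 2 + em / 4) - c)) ≤ em * K := by
      linarith
    exact g1.trans (le_of_mul_le_mul_left g5 hpos)

/-- admissible tail parameters -/
def TailOK (l N x : ℝ) : Prop := 0 ≤ l ∧ 1 ≤ N ∧ N ≤ 12 / 5 ∧ 1 + l ^ 2 * x ≤ N ^ 2

theorem tail_bound {l N x t : ℝ} (h : TailOK l N x) (ht0 : 0 ≤ t) (ht : t ≤ x) :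
    (l - l ^ 2 * (N - 1) / (N * (N + 1))) * t ≤
      l * t - (√(1 + l ^ 2 * t) - 1) ^ 2 / √(1 + l ^ 2 * t) := by
  obtain ⟨hl, hN1, hN2, hx⟩ := h
  have hp : 0 ≤ l ^ 2 * t := mul_nonneg (sq_nonneg _) ht0
  set M := √(1 + l ^ 2 * t) with hM
  have hM2 : M ^ 2 = 1 + l ^ 2 * t := Real.sq_sqrt (by linarith)
  have hM1 : 1 ≤ M := Real.le_sqrt_of_sq_le (by linarith)
  have hMN : M ≤ N := by
    apply Real.sqrt_le_iff.mpr
    refine ⟨by linarith, ?_⟩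
    have : l ^ 2 * t ≤ l ^ 2 * x := mul_le_mul_of_nonneg_left ht (sq_nonneg _)
    linarith
  have key : (M - 1) / (M * (M + 1)) ≤ (N - 1) / (N * (N + 1)) := by
    rw [div_le_div_iff₀ (by positivity) (by positivity)]
    have h1 : (N - 1) * (M * (M + 1)) - (M - 1) * (N * (N + 1)) =
        (N - M) * (2 - (M - 1) * (N - 1)) := by ring
    have h2 : (M - 1) * (N - 1) ≤ (7 / 5) * (7 / 5) :=
      mul_le_mul (by linarith) (by linarith) (by linarith) (by norm_num)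
    have h3 : 0 ≤ (N - M) * (2 - (M - 1) * (N - 1)) := mul_nonneg (by linarith) (by linarith)
    linarith
  have e1 : (M - 1) ^ 2 / M = (l ^ 2 * t) * ((M - 1) / (M * (M + 1))) := by
    have : l ^ 2 * t = (M - 1) * (M + 1) := by linarith
    rw [this]; field_simp
  have e2 := mul_le_mul_of_nonneg_left key hp
  have e3 : (l - l ^ 2 * (N - 1) / (N * (N + 1))) * t =
      l * t - (l ^ 2 * t) * ((N - 1) / (N * (N + 1))) := by ring
  rw [e1, e3]; linarith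

/-- output of the cap inequality with four cells treated inside the three-space -/
def Cap4 (t1 t2 t3 t4 S w w4 : ℝ) (Tl : ℝ → Prop) : Prop :=
  ∃ ε ε4 ν1 ν2 ν3 ν4 : ℝ, 0 ≤ ε ∧ ε ≤ w * S ∧ ε ≤ w ∧ 0 ≤ ε4 ∧ ε4 ≤ w4 * S ∧ ε4 ≤ w4 ∧
    Cell t1 ε ν1 ∧ Cell t2 ε ν2 ∧ Cell t3 ε ν3 ∧ Cell t4 ε4 ν4 ∧
    ∀ l N x, Tl x → TailOK l N x →
      8 - 2 * (ν1 + ν2 + ν3 + ν4) + (l - l ^ 2 * (N - 1) / (N * (N + 1))) * S ≤ 4

/-- output of the cap inequality with three cells treated inside the three-space -/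
def Cap3 (t1 t2 t3 S : ℝ) (Tl : ℝ → Prop) : Prop :=
  ∃ ν1 ν2 ν3 : ℝ, Cell t1 0 ν1 ∧ Cell t2 0 ν2 ∧ Cell t3 0 ν3 ∧
    ∀ l N x, Tl x → TailOK l N x →
      6 - 2 * (ν1 + ν2 + ν3) + (l - l ^ 2 * (N - 1) / (N * (N + 1))) * S ≤ 4

end Crest.Agent.R215
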