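import Crest.Agent.R215.Cap
import Crest.Agent.R215.NumBase

/-! Admissible configurations (normalised first moments of partitions) and the cap inequality. -/

open MeasureTheory ProbabilityTheory Real Module
open scoped RealInnerProductSpace

namespace Crest.Agent.R215

variable {E : Type*} [NormedAddCommGroup E] [InnerProductSpace ℝ E] [FiniteDimensional ℝ E]
  [MeasurableSpace E] [BorelSpace E] {ι : Type*} [Fintype ι]

/-- `z` is admissible when it satisfies the test inequality enjoyed by the normalised first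
moments of a partition. -/
def Adm (z : ι → E) : Prop :=
  ∀ (v : ι → E) (F : E → ℝ), Integrable F (stdGaussian E) → (∀ i g, ⟪v i, g⟫ ≤ F g) →
    ∑ i, ⟪z i, v i⟫ ≤ √(2 * π) * ∫ g, F g ∂stdGaussian E

theorem adm_of_partition (A : ι → Set E) (hA : ∀ i, MeasurableSet (A i))
    (hdisj : Pairwise fun i j => Disjoint (A i) (A j)) (hcov : ⋃ i, A i = Set.univ) :
    Adm (fun i => √(2 * π) • ∫ x in A i, x ∂stdGaussian E) := by
  intro v F hF hv
  have hid : Integrable (fun x : E => x) (stdGaussian E) := IsGaussian.integrable_fun_id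
  have h1 : ∀ i, ⟪∫ x in A i, x ∂stdGaussian E, v i⟫ ≤ ∫ x in A i, F x ∂stdGaussian E := by
    intro i
    rw [real_inner_comm, ← integral_inner hid.integrableOn]
    exact setIntegral_mono_on (integrable_inner_gauss _).integrableOn hF.integrableOn (hA i)
      fun g _ => hv i g
  have h2 : ∑ i, ∫ x in A i, F x ∂stdGaussian E = ∫ g, F g ∂stdGaussian E := by
    rw [← integral_iUnion_fintype hA hdisj (fun i => hF.integrableOn), hcov,
      Measure.restrict_univ]
  simp only [real_inner_smul_left]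
  rw [← Finset.mul_sum, ← h2]
  exact mul_le_mul_of_nonneg_left (Finset.sum_le_sum fun i _ => h1 i) (Real.sqrt_nonneg _)

theorem Adm.sum_eq_zero {z : ι → E} (hz : Adm z) : ∑ i, z i = 0 := by
  have h := hz (fun _ => ∑ i, z i) (fun g => ⟪∑ i, z i, g⟫) (integrable_inner_gauss _)
    (fun _ _ => le_rfl)
  rw [integral_inner_gauss, mul_zero, ← sum_inner, real_inner_self_eq_norm_sq] at h
  exact norm_eq_zero.1 (pow_eq_zero_iff two_ne_zero |>.1 (le_antisymm h (sq_nonneg _)))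

theorem Adm.norm_sum_le_one {z : ι → E} (hz : Adm z) (s : Finset ι) : ‖∑ i ∈ s, z i‖ ≤ 1 := by
  classical
  set R := ∑ i ∈ s, z i with hR
  have h := hz (fun i => if i ∈ s then R else 0) (fun g => max ⟪R, g⟫ 0)
    ((integrable_inner_gauss R).sup (integrable_const 0)) (by
      intro i g
      by_cases hi : i ∈ s <;> simp [hi])
  have h1 : ∑ i, ⟪z i, if i ∈ s then R else 0⟫ = ‖R‖ ^ 2 := by
    have e1 : ∀ i, ⟪z i, if i ∈ s then R else 0⟫ = if i ∈ s then ⟪z i, R⟫ else 0 := by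
      intro i; split_ifs <;> simp
    simp_rw [e1]
    rw [Finset.sum_ite_mem, Finset.univ_inter, ← sum_inner, ← hR, real_inner_self_eq_norm_sq]
  rw [h1] at h
  have h2 := h.trans (integral_posPart_inner R)
  rcases eq_or_lt_of_le (norm_nonneg R) with h0 | h0
  · rw [← h0]; norm_num
  · nlinarith

theorem Adm.norm_le_one {z : ι → E} (hz : Adm z) (i : ι) : ‖z i‖ ≤ 1 := by
  simpa using hz.norm_sum_le_one {i}

theorem Adm.smul [Nonempty ι] {z : ι → E} (hz : Adm z) {θ : ℝ} (h0 : 0 ≤ θ) (h1 : θ ≤ 1) :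
    Adm (fun i => θ • z i) := by
  intro v F hF hv
  have h := hz v F hF hv
  obtain ⟨i⟩ := ‹Nonempty ι›
  have hF0 : 0 ≤ ∫ g, F g ∂stdGaussian E := by
    rw [← integral_inner_gauss (v i)]
    exact integral_mono (integrable_inner_gauss _) hF (hv i)
  have h2 : 0 ≤ √(2 * π) * ∫ g, F g ∂stdGaussian E := mul_nonneg (Real.sqrt_nonneg _) hF0
  simp only [real_inner_smul_left]
  rw [← Finset.mul_sum]
  nlinarith

omit [BorelSpace E] in
theorem Adm.merge [DecidableEq ι] {z : ι → E} (hz : Adm z) {i j : ι} (hij : i ≠ j) :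
    Adm (fun l => if l = i then z i + z j else if l = j then 0 else z l) := by
  intro v F hF hv
  have h := hz (fun l => if l = j then v i else v l) F hF (by
    intro l g
    by_cases hl : l = j <;> simp [hl, hv])
  refine le_trans (le_of_eq ?_) h
  rw [← Finset.add_sum_erase _ _ (Finset.mem_univ i), ← Finset.add_sum_erase _ _ (Finset.mem_univ i),
    ← Finset.add_sum_erase _ _ (Finset.mem_erase.2 ⟨hij.symm, Finset.mem_univ j⟩),
    ← Finset.add_sum_erase _ _ (Finset.mem_erase.2 ⟨hij.symm, Finset.mem_univ j⟩)]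
  have e : ∑ x ∈ (Finset.univ.erase i).erase j,
      ⟪if x = i then z i + z j else if x = j then 0 else z x, v x⟫ =
      ∑ x ∈ (Finset.univ.erase i).erase j, ⟪z x, if x = j then v i else v x⟫ := by
    refine Finset.sum_congr rfl fun x hx => ?_
    have h1 : x ≠ j := (Finset.mem_erase.1 hx).1
    have h2 : x ≠ i := (Finset.mem_erase.1 (Finset.mem_erase.1 hx).2).1
    simp [h1, h2]
  rw [e]
  simp [hij, hij.symm, inner_add_left, add_assoc]

theorem Adm.cap [DecidableEq ι] {z : ι → E} (hz : Adm z) (hE : 4 ≤ finrank ℝ E)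
    (P : Submodule ℝ E) (hP : finrank ℝ P = 3) (B : Finset ι) (σ : ι → ℝ)
    (hσ : ∀ a, 0 < σ a) (l : ℝ) :
    ∑ a ∈ B, (σ a * (‖P.starProjection (z a)‖ + ‖Pᗮ.starProjection (z a)‖ ^ 2 / 2) -
        (σ a - 1) ^ 2 / σ a) +
      ∑ j ∈ Bᶜ, (l * ‖z j‖ ^ 2 - (√(1 + l ^ 2 * ‖z j‖ ^ 2) - 1) ^ 2 / √(1 + l ^ 2 * ‖z j‖ ^ 2))
      ≤ 4 := by
  choose e heP he1 hee using fun a =>
    exists_unit_dir P (by omega) (P.starProjection_apply_mem (z a))
  set v : ι → E := fun i =>
    if i ∈ B then σ i • e i + σ i • Pᗮ.starProjection (z i) else l • z i with hv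
  set ρ : E → ℝ := fun g => ‖P.starProjection g‖ with hρ
  have iρ : Integrable ρ (stdGaussian E) :=
    integrable_of_le_norm (by fun_prop) 1 fun g => by
      rw [one_mul, abs_of_nonneg (norm_nonneg _)]; exact P.norm_starProjection_apply_le g
  have ih : ∀ i, Integrable (fun g => max (⟪v i, g⟫ - ρ g) 0) (stdGaussian E) := fun i =>
    ((integrable_inner_gauss _).sub iρ).sup (integrable_const 0)
  have h := hz v (fun g => ρ g + ∑ i, max (⟪v i, g⟫ - ρ g) 0)
    (iρ.add (integrable_finsetSum _ fun i _ => ih i)) (by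
      intro i g
      have h1 : max (⟪v i, g⟫ - ρ g) 0 ≤ ∑ i, max (⟪v i, g⟫ - ρ g) 0 :=
        Finset.single_le_sum (f := fun i => max (⟪v i, g⟫ - ρ g) 0)
          (fun _ _ => le_max_right _ _) (Finset.mem_univ i)
      have h2 := le_max_left (⟪v i, g⟫ - ρ g) 0
      linarith)
  rw [integral_add iρ (integrable_finsetSum _ fun i _ => ih i),
    integral_finsetSum _ (fun i _ => ih i), mul_add, Finset.mul_sum] at h
  have hK := capK P hP hE
  have hB : ∀ a ∈ B, σ a * (‖P.starProjection (z a)‖ + ‖Pᗮ.starProjection (z a)‖ ^ 2 / 2) -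
        (σ a - 1) ^ 2 / σ a ≤
      ⟪z a, v a⟫ - √(2 * π) * ∫ g, max (⟪v a, g⟫ - ρ g) 0 ∂stdGaussian E := by
    intro a ha
    have hva : v a = σ a • e a + σ a • Pᗮ.starProjection (z a) := by simp only [hv, if_pos ha]
    have hn : ‖σ a • e a‖ = σ a := by
      rw [norm_smul, he1, mul_one, Real.norm_of_nonneg (hσ a).le]
    have hc := capIn P hP hE (u := σ a • e a) (w := σ a • Pᗮ.starProjection (z a))
      (P.smul_mem _ (heP a)) (Pᗮ.smul_mem _ (Pᗮ.starProjection_apply_mem _))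
      (by rw [hn]; exact hσ a)
    rw [hn, norm_smul, Real.norm_of_nonneg (hσ a).le, ← hva] at hc
    have i1 : ⟪z a, e a⟫ = ‖P.starProjection (z a)‖ := by
      rw [← (Submodule.starProjection_eq_self_iff.2 (heP a)),
        ← Submodule.inner_starProjection_left_eq_right]
      conv_lhs => rw [hee a]
      rw [real_inner_smul_left, real_inner_self_eq_norm_sq, he1]; ring
    have i2 : ⟪z a, Pᗮ.starProjection (z a)⟫ = ‖Pᗮ.starProjection (z a)‖ ^ 2 := by
      rw [← real_inner_self_eq_norm_sq, Submodule.inner_starProjection_left_eq_right,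
        Submodule.starProjection_eq_self_iff.2 (Pᗮ.starProjection_apply_mem _)]
    have i3 : ⟪z a, v a⟫ = σ a * ‖P.starProjection (z a)‖ +
        σ a * ‖Pᗮ.starProjection (z a)‖ ^ 2 := by
      rw [hva, inner_add_right, real_inner_smul_right, real_inner_smul_right, i1, i2]
    have i4 : (σ a * ‖Pᗮ.starProjection (z a)‖) ^ 2 / (2 * σ a) =
        σ a * ‖Pᗮ.starProjection (z a)‖ ^ 2 / 2 := by
      have := (hσ a).ne'
      field_simp
    rw [i4] at hc
    rw [i3]
    linarith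
  have hBc : ∀ j ∈ Bᶜ, l * ‖z j‖ ^ 2 -
        (√(1 + l ^ 2 * ‖z j‖ ^ 2) - 1) ^ 2 / √(1 + l ^ 2 * ‖z j‖ ^ 2) ≤
      ⟪z j, v j⟫ - √(2 * π) * ∫ g, max (⟪v j, g⟫ - ρ g) 0 ∂stdGaussian E := by
    intro j hj
    have hvj : v j = l • z j := by simp only [hv, if_neg (Finset.mem_compl.1 hj)]
    have hc := capPerp P hP hE (v j)
    have hn : ‖v j‖ ^ 2 = l ^ 2 * ‖z j‖ ^ 2 := by
      rw [hvj, norm_smul, mul_pow, Real.norm_eq_abs, sq_abs]
    rw [hn] at hc
    have i1 : ⟪z j, v j⟫ = l * ‖z j‖ ^ 2 := by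
      rw [hvj, real_inner_smul_right, real_inner_self_eq_norm_sq]
    rw [i1]
    linarith
  have s1 := Finset.sum_le_sum hB
  have s2 := Finset.sum_le_sum hBc
  have s3 := Finset.sum_add_sum_compl B
    (fun i => ⟪z i, v i⟫ - √(2 * π) * ∫ g, max (⟪v i, g⟫ - ρ g) 0 ∂stdGaussian E)
  rw [Finset.sum_sub_distrib (s := Finset.univ)] at s3
  linarith

theorem Adm.cells [DecidableEq ι] {z : ι → E} (hz : Adm z) (hE : 4 ≤ finrank ℝ E)
    (P : Submodule ℝ E) (hP : finrank ℝ P = 3) (B : Finset ι) :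
    ∃ ν : ι → ℝ, (∀ a, Cell (‖z a‖ ^ 2) (‖Pᗮ.starProjection (z a)‖ ^ 2) (ν a)) ∧
      ∀ l N x, (∀ j ∈ Bᶜ, ‖z j‖ ^ 2 ≤ x) → TailOK l N x →
        ∑ a ∈ B, (2 - 2 * ν a) +
          (l - l ^ 2 * (N - 1) / (N * (N + 1))) * ∑ j ∈ Bᶜ, ‖z j‖ ^ 2 ≤ 4 := by
  set s : ι → ℝ := fun a => ‖P.starProjection (z a)‖ + ‖Pᗮ.starProjection (z a)‖ ^ 2 / 2 with hs
  have hs0 : ∀ a, 0 ≤ s a := fun a => by simp only [hs]; positivity
  have hpy : ∀ a, ‖z a‖ ^ 2 = ‖P.starProjection (z a)‖ ^ 2 + ‖Pᗮ.starProjection (z a)‖ ^ 2 :=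
    fun a => P.norm_sq_eq_add_norm_sq_starProjection (z a)
  have hs1 : ∀ a, s a ≤ 1 := by
    intro a
    have h1 : ‖z a‖ ^ 2 ≤ 1 := pow_le_one₀ (norm_nonneg _) (hz.norm_le_one a)
    have h2 := hpy a
    simp only [hs]
    nlinarith [sq_nonneg (‖P.starProjection (z a)‖ - 1)]
  have hν2 : ∀ a, √(1 - s a) ^ 2 = 1 - s a := fun a => Real.sq_sqrt (by linarith [hs1 a])
  refine ⟨fun a => √(1 - s a), fun a => ⟨Real.sqrt_nonneg _, ?_, ?_⟩, ?_⟩
  · exact Real.sqrt_le_one.2 (by linarith [hs0 a])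
  · rw [hν2, hpy]; simp only [hs]; ring
  · intro l N x hx hT
    have ht : (l - l ^ 2 * (N - 1) / (N * (N + 1))) * ∑ j ∈ Bᶜ, ‖z j‖ ^ 2 ≤
        ∑ j ∈ Bᶜ, (l * ‖z j‖ ^ 2 -
          (√(1 + l ^ 2 * ‖z j‖ ^ 2) - 1) ^ 2 / √(1 + l ^ 2 * ‖z j‖ ^ 2)) := by
      rw [Finset.mul_sum]
      exact Finset.sum_le_sum fun j hj => tail_bound hT (sq_nonneg _) (hx j hj)
    refine le_of_forall_pos_le_add fun η hη => ?_
    set δ := η / (B.card + 1) with hδ
    have hδ0 : 0 < δ := by positivity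
    have hc := hz.cap hE P hP B (fun a => (√(1 - s a) + δ)⁻¹) (fun a => by positivity) l
    have hcell : ∀ a ∈ B, 2 - 2 * √(1 - s a) - δ ≤
        (√(1 - s a) + δ)⁻¹ * s a - ((√(1 - s a) + δ)⁻¹ - 1) ^ 2 / (√(1 - s a) + δ)⁻¹ := by
      intro a _
      have hν := hν2 a
      have hν0 := Real.sqrt_nonneg (1 - s a)
      generalize √(1 - s a) = ν at hν hν0
      have hsa : s a = 1 - ν ^ 2 := by linarith
      have hp : 0 < ν + δ := by linarith
      have e1 : (ν + δ)⁻¹ * s a - ((ν + δ)⁻¹ - 1) ^ 2 / (ν + δ)⁻¹ =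
          2 - (ν + δ) - ν ^ 2 / (ν + δ) := by
        rw [hsa]; field_simp; ring
      have e2 : ν ^ 2 / (ν + δ) ≤ ν := by
        rw [div_le_iff₀ hp]; nlinarith
      rw [e1]; linarith
    have s1 := Finset.sum_le_sum hcell
    rw [Finset.sum_sub_distrib, Finset.sum_const, nsmul_eq_mul] at s1
    have s2 : (B.card : ℝ) * δ ≤ η := by
      rw [hδ, mul_div_assoc', div_le_iff₀ (by positivity)]
      nlinarith
    simp only [hs] at s1 ⊢
    linarith

omit [MeasurableSpace E] [BorelSpace E] in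
theorem exists_three_space (hE : 3 ≤ finrank ℝ E) (a b c : E) :
    ∃ P : Submodule ℝ E, finrank ℝ P = 3 ∧ a ∈ P ∧ b ∈ P ∧ c ∈ P := by
  classical
  have step : ∀ k : ℕ, ∀ Q : Submodule ℝ E, finrank ℝ Q + k = 3 →
      ∃ P : Submodule ℝ E, finrank ℝ P = 3 ∧ Q ≤ P := by
    intro k
    induction k with
    | zero => intro Q hQ; exact ⟨Q, by simpa using hQ, le_rfl⟩
    | succ k ih =>
      intro Q hQ
      have hne : Q ≠ ⊤ := by
        intro h
        rw [h, finrank_top] at hQ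
        omega
      obtain ⟨v, hv⟩ : ∃ v, v ∉ Q := by
        by_contra hc
        push Not at hc
        exact hne (Submodule.eq_top_iff'.2 hc)
      obtain ⟨P, hP, hle⟩ := ih (Q ⊔ ℝ ∙ v) (by
        rw [Submodule.finrank_sup_span_singleton hv]; omega)
      exact ⟨P, hP, le_sup_left.trans hle⟩
  have h3 : finrank ℝ (Submodule.span ℝ (Set.range ![a, b, c])) ≤ 3 := by
    have := finrank_range_le_card (R := ℝ) ![a, b, c]
    rw [Fintype.card_fin] at this
    exact this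
  obtain ⟨P, hP, hle⟩ := step (3 - finrank ℝ (Submodule.span ℝ (Set.range ![a, b, c])))
    (Submodule.span ℝ (Set.range ![a, b, c])) (by omega)
  exact ⟨P, hP, hle (Submodule.subset_span ⟨0, rfl⟩), hle (Submodule.subset_span ⟨1, rfl⟩),
    hle (Submodule.subset_span ⟨2, rfl⟩)⟩

end Crest.Agent.R215
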