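import Mathlib

open MeasureTheory ProbabilityTheory Real Set

namespace Crest.Agent.R215

/-- Lower Lebesgue integral against the standard Gaussian, as a Lebesgue integral. -/
lemma arch_gauss (f : ℝ → ENNReal) (hf : Measurable f) :
    ∫⁻ x, f x ∂gaussianReal 0 1 =
      ∫⁻ x, ENNReal.ofReal ((√(2 * π))⁻¹ * exp (-x ^ 2 / 2)) * f x := by
  rw [gaussianReal_of_var_ne_zero _ one_ne_zero,
    lintegral_withDensity_eq_lintegral_mul _ (measurable_gaussianPDF _ _) hf]
  refine lintegral_congr fun x => ?_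
  simp [gaussianPDF, gaussianPDFReal]

/-- The Rayleigh law. -/
lemma arch_rayleigh (Ψ : ℝ → ENNReal) (hΨ : Measurable Ψ) :
    ∫⁻ b, ∫⁻ c, Ψ (b ^ 2 + c ^ 2) ∂gaussianReal 0 1 ∂gaussianReal 0 1 =
      ∫⁻ ρ in Ioi (0 : ℝ), ENNReal.ofReal (ρ * exp (-ρ ^ 2 / 2)) * Ψ (ρ ^ 2) := by
  have h2π : (0 : ℝ) < 2 * π := by positivity
  set F : ℝ × ℝ → ENNReal := fun p =>
    ENNReal.ofReal ((2 * π)⁻¹ * exp (-(p.1 ^ 2 + p.2 ^ 2) / 2)) * Ψ (p.1 ^ 2 + p.2 ^ 2) with hF
  have hFm : Measurable F := by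
    refine Measurable.mul (by fun_prop) (hΨ.comp (by fun_prop))
  have h1 : ∫⁻ b, ∫⁻ c, Ψ (b ^ 2 + c ^ 2) ∂gaussianReal 0 1 ∂gaussianReal 0 1 = ∫⁻ p, F p := by
    rw [arch_gauss]
    · rw [Measure.volume_eq_prod, lintegral_prod _ hFm.aemeasurable]
      refine lintegral_congr fun b => ?_
      rw [arch_gauss (fun c => Ψ (b ^ 2 + c ^ 2))
        (hΨ.comp (f := fun c : ℝ => b ^ 2 + c ^ 2) (by fun_prop)), ← lintegral_const_mul]
      · refine lintegral_congr fun c => ?_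
        simp only [hF]
        rw [← mul_assoc, ← ENNReal.ofReal_mul (by positivity)]
        congr 2
        have hs : (√(2 * π))⁻¹ * (√(2 * π))⁻¹ = (2 * π)⁻¹ := by
          rw [← mul_inv, Real.mul_self_sqrt h2π.le]
        rw [← hs, show -(b ^ 2 + c ^ 2) / 2 = -b ^ 2 / 2 + -c ^ 2 / 2 by ring, exp_add]
        ring
      · exact Measurable.mul (by fun_prop) (hΨ.comp (by fun_prop))
    · exact Measurable.lintegral_prod_right' (f := fun p : ℝ × ℝ => Ψ (p.1 ^ 2 + p.2 ^ 2))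
        (hΨ.comp (by fun_prop))
  rw [h1, ← lintegral_comp_polarCoord_symm]
  have h2 : ∀ p : ℝ × ℝ, ENNReal.ofReal p.1 • F (polarCoord.symm p) =
      ENNReal.ofReal p.1 * (ENNReal.ofReal ((2 * π)⁻¹ * exp (-p.1 ^ 2 / 2)) * Ψ (p.1 ^ 2)) := by
    intro p
    have : (p.1 * cos p.2) ^ 2 + (p.1 * sin p.2) ^ 2 = p.1 ^ 2 := by
      have := cos_sq_add_sin_sq p.2
      linear_combination p.1 ^ 2 * this
    simp only [hF, polarCoord_symm_apply, smul_eq_mul, this]
  simp_rw [h2]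
  rw [polarCoord_target, Measure.volume_eq_prod, ← Measure.prod_restrict, lintegral_prod]
  · refine setLIntegral_congr_fun measurableSet_Ioi fun ρ hρ => ?_
    have hρ' : 0 ≤ ρ := le_of_lt hρ
    simp only [lintegral_const, Measure.restrict_apply MeasurableSet.univ, univ_inter,
      Real.volume_Ioo]
    rw [← mul_assoc, ← ENNReal.ofReal_mul hρ', mul_assoc, mul_comm (Ψ _), ← mul_assoc,
      ← ENNReal.ofReal_mul (by positivity)]
    congr 2
    field_simp
    ring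
  · exact (Measurable.mul (by fun_prop) (Measurable.mul (by fun_prop)
      (hΨ.comp (by fun_prop)))).aemeasurable

/-- The substitution `r = √(a² + ρ²)`. -/
lemma arch_subst (a : ℝ) (G : ℝ → ENNReal) :
    ∫⁻ ρ in Ioi (0 : ℝ), ENNReal.ofReal (ρ * exp (-ρ ^ 2 / 2)) * G (√(a ^ 2 + ρ ^ 2)) =
      ∫⁻ r in Ioi |a|, ENNReal.ofReal (r * exp (-(r ^ 2 - a ^ 2) / 2)) * G r := by
  have himg : (fun ρ : ℝ => √(a ^ 2 + ρ ^ 2)) '' Ioi 0 = Ioi |a| := by
    ext r
    simp only [mem_image, mem_Ioi]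
    constructor
    · rintro ⟨ρ, hρ, rfl⟩
      refine lt_sqrt_of_sq_lt ?_
      rw [sq_abs]; nlinarith
    · intro hr
      have h0 : 0 ≤ |a| := abs_nonneg a
      have h1 : a ^ 2 < r ^ 2 := by rw [← sq_abs a]; nlinarith
      refine ⟨√(r ^ 2 - a ^ 2), sqrt_pos.2 (by linarith), ?_⟩
      rw [sq_sqrt (by linarith), show a ^ 2 + (r ^ 2 - a ^ 2) = r ^ 2 by ring,
        sqrt_sq (by linarith)]
  have hder : ∀ ρ ∈ Ioi (0 : ℝ), HasDerivWithinAt (fun ρ : ℝ => √(a ^ 2 + ρ ^ 2))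
      (ρ / √(a ^ 2 + ρ ^ 2)) (Ioi 0) ρ := by
    intro ρ hρ
    have hρ' : 0 < ρ := hρ
    have hpos : 0 < a ^ 2 + ρ ^ 2 := by positivity
    have h1 : HasDerivAt (fun ρ : ℝ => a ^ 2 + ρ ^ 2) (2 * ρ) ρ := by
      simpa using (hasDerivAt_pow 2 ρ).const_add (a ^ 2)
    have h2 := h1.sqrt hpos.ne'
    have h3 : 2 * ρ / (2 * √(a ^ 2 + ρ ^ 2)) = ρ / √(a ^ 2 + ρ ^ 2) := by
      rw [mul_div_mul_left _ _ two_ne_zero]
    rw [h3] at h2
    exact h2.hasDerivWithinAt
  have hinj : InjOn (fun ρ : ℝ => √(a ^ 2 + ρ ^ 2)) (Ioi 0) := by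
    intro x hx y hy hxy
    have hx' : 0 < x := hx
    have hy' : 0 < y := hy
    simp only at hxy
    rw [sqrt_inj (by positivity) (by positivity)] at hxy
    have : x ^ 2 = y ^ 2 := by linarith
    exact (pow_left_inj₀ hx'.le hy'.le two_ne_zero).1 this
  rw [← himg, lintegral_image_eq_lintegral_abs_deriv_mul measurableSet_Ioi hder hinj]
  refine setLIntegral_congr_fun measurableSet_Ioi fun ρ hρ => ?_
  have hρ' : 0 < ρ := hρ
  have hpos : 0 < a ^ 2 + ρ ^ 2 := by positivity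
  have hs : 0 < √(a ^ 2 + ρ ^ 2) := sqrt_pos.2 hpos
  rw [← mul_assoc, ← ENNReal.ofReal_mul (abs_nonneg _), abs_of_pos (by positivity),
    sq_sqrt hpos.le]
  congr 2
  rw [show a ^ 2 + ρ ^ 2 - a ^ 2 = ρ ^ 2 by ring]
  field_simp

/-- Archimedes' hat-box lemma for the standard Gaussian in dimension three. -/
lemma arch_main (Φ : ℝ → ℝ → ENNReal) (hΦ : Measurable (fun p : ℝ × ℝ => Φ p.1 p.2)) :
    ∫⁻ a, ∫⁻ b, ∫⁻ c, Φ a (√(a ^ 2 + b ^ 2 + c ^ 2))
      ∂gaussianReal 0 1 ∂gaussianReal 0 1 ∂gaussianReal 0 1 =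
    ∫⁻ r in Ioi (0 : ℝ), ENNReal.ofReal ((√(2 * π))⁻¹ * (r * exp (-r ^ 2 / 2))) *
      ∫⁻ a in Ioo (-r) r, Φ a r := by
  have h1 : ∀ a : ℝ, ∫⁻ b, ∫⁻ c, Φ a (√(a ^ 2 + b ^ 2 + c ^ 2))
      ∂gaussianReal 0 1 ∂gaussianReal 0 1 =
      ∫⁻ r in Ioi |a|, ENNReal.ofReal (r * exp (-(r ^ 2 - a ^ 2) / 2)) * Φ a r := by
    intro a
    rw [← arch_subst a (Φ a), ← arch_rayleigh (fun s => Φ a (√(a ^ 2 + s)))]
    · simp_rw [add_assoc]
    · exact hΦ.comp (f := fun s : ℝ => (a, √(a ^ 2 + s))) (by fun_prop)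
  simp_rw [h1]
  set H : ℝ → ℝ → ENNReal := fun a r => ({p : ℝ × ℝ | |p.1| < p.2}.indicator
    (fun p => ENNReal.ofReal ((√(2 * π))⁻¹ * (p.2 * exp (-p.2 ^ 2 / 2))) * Φ p.1 p.2) (a, r))
    with hH
  have hS : MeasurableSet {p : ℝ × ℝ | |p.1| < p.2} :=
    measurableSet_lt (by fun_prop) (by fun_prop)
  have hHm : Measurable (Function.uncurry H) :=
    (Measurable.mul (by fun_prop) hΦ).indicator hS
  have hG : Measurable (fun a : ℝ => ∫⁻ r in Ioi |a|,
      ENNReal.ofReal (r * exp (-(r ^ 2 - a ^ 2) / 2)) * Φ a r) := by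
    have : (fun a : ℝ => ∫⁻ r in Ioi |a|,
        ENNReal.ofReal (r * exp (-(r ^ 2 - a ^ 2) / 2)) * Φ a r) =
        fun a : ℝ => ∫⁻ r, ({p : ℝ × ℝ | |p.1| < p.2}.indicator
          (fun p => ENNReal.ofReal (p.2 * exp (-(p.2 ^ 2 - p.1 ^ 2) / 2)) * Φ p.1 p.2) (a, r)) := by
      funext a
      rw [← lintegral_indicator measurableSet_Ioi]
      refine lintegral_congr fun r => ?_
      simp only [indicator, mem_Ioi, mem_ofPred_eq]
    rw [this]
    exact Measurable.lintegral_prod_right'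
      ((Measurable.mul (by fun_prop) hΦ).indicator hS)
  rw [arch_gauss _ hG]
  have h2 : ∀ a : ℝ, ENNReal.ofReal ((√(2 * π))⁻¹ * exp (-a ^ 2 / 2)) *
      ∫⁻ r in Ioi |a|, ENNReal.ofReal (r * exp (-(r ^ 2 - a ^ 2) / 2)) * Φ a r =
      ∫⁻ r, H a r := by
    intro a
    rw [← lintegral_const_mul' _ _ ENNReal.ofReal_ne_top, ← lintegral_indicator measurableSet_Ioi]
    refine lintegral_congr fun r => ?_
    simp only [hH, indicator, mem_Ioi, mem_ofPred_eq]
    split_ifs with h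
    · rw [← mul_assoc, ← ENNReal.ofReal_mul (by positivity)]
      congr 2
      rw [show -r ^ 2 / 2 = -a ^ 2 / 2 + -(r ^ 2 - a ^ 2) / 2 by ring, exp_add]
      ring
    · rfl
  simp_rw [h2]
  rw [lintegral_lintegral_swap hHm.aemeasurable, ← lintegral_indicator measurableSet_Ioi]
  refine lintegral_congr fun r => ?_
  by_cases hr : r ∈ Ioi (0 : ℝ)
  · rw [indicator_of_mem hr, ← lintegral_const_mul' _ _ ENNReal.ofReal_ne_top,
      ← lintegral_indicator measurableSet_Ioo]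
    refine lintegral_congr fun a => ?_
    simp only [hH, indicator, mem_Ioo, mem_ofPred_eq, abs_lt]
  · rw [indicator_of_notMem hr]
    have : ∀ a, H a r = 0 := by
      intro a
      have h0 : ¬ |a| < r := by
        have := abs_nonneg a
        simp only [mem_Ioi, not_lt] at hr
        linarith
      simp only [hH, indicator, mem_ofPred_eq, h0, if_false]
    simp [this]

lemma arch_int1 : ∫ r in Ioi (0 : ℝ), r * exp (-r ^ 2 / 2) = 1 := by
  have h := integral_rpow_mul_exp_neg_mul_rpow (p := 2) (q := 1) (b := 1 / 2) (by norm_num)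
    (by norm_num) (by norm_num)
  have h2 : ∫ r in Ioi (0 : ℝ), r * exp (-r ^ 2 / 2) =
      ∫ x in Ioi (0 : ℝ), x ^ (1 : ℝ) * exp (-(1 / 2) * x ^ (2 : ℝ)) := by
    refine setIntegral_congr_fun measurableSet_Ioi fun x _ => ?_
    simp only [rpow_one, rpow_two]
    congr 2; ring
  rw [h2, h]
  norm_num [rpow_neg_one]

lemma arch_int3 : ∫ r in Ioi (0 : ℝ), r ^ 3 * exp (-r ^ 2 / 2) = 2 := by
  have h := integral_rpow_mul_exp_neg_mul_rpow (p := 2) (q := 3) (b := 1 / 2) (by norm_num)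
    (by norm_num) (by norm_num)
  have h2 : ∫ r in Ioi (0 : ℝ), r ^ 3 * exp (-r ^ 2 / 2) =
      ∫ x in Ioi (0 : ℝ), x ^ (3 : ℝ) * exp (-(1 / 2) * x ^ (2 : ℝ)) := by
    refine setIntegral_congr_fun measurableSet_Ioi fun x _ => ?_
    simp only [rpow_two]
    rw [show (3 : ℝ) = ((3 : ℕ) : ℝ) by norm_num, rpow_natCast]
    congr 2; ring
  rw [h2, h]
  have h3 : (1 / 2 : ℝ) ^ (-((3 : ℝ) + 1) / 2) = 4 := by
    rw [show (-((3 : ℝ) + 1) / 2) = -((2 : ℕ) : ℝ) by norm_num, rpow_neg (by norm_num),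
      rpow_natCast]
    norm_num
  rw [h3, show ((3 : ℝ) + 1) / 2 = 2 by norm_num, Real.Gamma_two]
  norm_num

lemma arch_integrable1 : IntegrableOn (fun r : ℝ => r * exp (-r ^ 2 / 2)) (Ioi 0) := by
  by_contra h
  have := arch_int1
  rw [integral_undef h] at this
  norm_num at this

lemma arch_integrable3 : IntegrableOn (fun r : ℝ => r ^ 3 * exp (-r ^ 2 / 2)) (Ioi 0) := by
  by_contra h
  have := arch_int3
  rw [integral_undef h] at this
  norm_num at this

lemma arch_lint (A B : ℝ) (hA : 0 ≤ A) (hB : 0 ≤ B) :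
    ∫⁻ r in Ioi (0 : ℝ), ENNReal.ofReal (A * (r ^ 3 * exp (-r ^ 2 / 2)) +
      B * (r * exp (-r ^ 2 / 2))) = ENNReal.ofReal (2 * A + B) := by
  rw [← ofReal_integral_eq_lintegral_ofReal]
  · rw [integral_add (arch_integrable3.const_mul A) (arch_integrable1.const_mul B),
      integral_const_mul, integral_const_mul, arch_int3, arch_int1]
    congr 1; ring
  · exact (arch_integrable3.const_mul A).add (arch_integrable1.const_mul B)
  · refine (ae_restrict_iff' measurableSet_Ioi).2 (Filter.Eventually.of_forall fun r hr => ?_)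
    have hr' : 0 < r := hr
    simp only [Pi.zero_apply]
    positivity

theorem core_K :
    ∫⁻ a, ∫⁻ b, ∫⁻ c, ENNReal.ofReal (√(a ^ 2 + b ^ 2 + c ^ 2))
      ∂gaussianReal 0 1 ∂gaussianReal 0 1 ∂gaussianReal 0 1
      ≤ ENNReal.ofReal (4 / √(2 * π)) := by
  rw [arch_main (fun _ r => ENNReal.ofReal r) (by fun_prop)]
  have h : ∫⁻ r in Ioi (0 : ℝ), ENNReal.ofReal ((√(2 * π))⁻¹ * (r * exp (-r ^ 2 / 2))) *
      ∫⁻ _ in Ioo (-r) r, ENNReal.ofReal r =
      ∫⁻ r in Ioi (0 : ℝ), ENNReal.ofReal ((2 * (√(2 * π))⁻¹) * (r ^ 3 * exp (-r ^ 2 / 2)) +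
      0 * (r * exp (-r ^ 2 / 2))) := by
    refine setLIntegral_congr_fun measurableSet_Ioi fun r hr => ?_
    have hr' : 0 < r := hr
    simp only [lintegral_const, Measure.restrict_apply MeasurableSet.univ, univ_inter,
      Real.volume_Ioo]
    rw [← ENNReal.ofReal_mul hr'.le, ← ENNReal.ofReal_mul (by positivity)]
    congr 1; ring
  rw [h, arch_lint _ _ (by positivity) le_rfl]
  apply le_of_eq
  congr 1
  rw [div_eq_mul_inv]; ring

lemma arch_ramp (σ m r : ℝ) (hσ : 0 < σ) :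
    ∫⁻ a in Ioo (-r) r, ENNReal.ofReal (σ * a + m - r) ≤
      ENNReal.ofReal ((r * (σ - 1) + m) ^ 2 / (2 * σ)) := by
  set t : ℝ := (r - m) / σ with ht
  have h1 : ∫⁻ a in Ioo (-r) r, ENNReal.ofReal (σ * a + m - r) ≤
      ∫⁻ a in Ioc t r, ENNReal.ofReal (σ * a + m - r) := by
    rw [← lintegral_indicator measurableSet_Ioo, ← lintegral_indicator measurableSet_Ioc]
    refine lintegral_mono fun a => ?_
    simp only [indicator, mem_Ioo, mem_Ioc]
    split_ifs with h1 h2 h2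
    · exact le_rfl
    · have h3 : a ≤ t := by
        by_contra h4
        exact h2 ⟨not_le.1 h4, h1.2.le⟩
      rw [ht, le_div_iff₀ hσ] at h3
      rw [ENNReal.ofReal_eq_zero.2 (by linarith)]
    · exact zero_le
    · exact le_rfl
  refine h1.trans ?_
  by_cases htr : t ≤ r
  · rw [← ofReal_integral_eq_lintegral_ofReal]
    · rw [← intervalIntegral.integral_of_le htr]
      apply le_of_eq
      congr 1
      have hd : ∀ x ∈ uIcc t r, HasDerivAt (fun a : ℝ => (σ * a + m - r) ^ 2 / (2 * σ))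
          (σ * x + m - r) x := by
        intro x _
        have h1 : HasDerivAt (fun a : ℝ => σ * a + m - r) σ x := by
          simpa using (((hasDerivAt_id x).const_mul σ).add_const m).sub_const r
        have h2 := (h1.pow 2).div_const (2 * σ)
        have h3 : ((2 : ℕ) : ℝ) * (σ * x + m - r) ^ (2 - 1) * σ / (2 * σ) = σ * x + m - r := by
          simp only [Nat.cast_ofNat, Nat.add_one_sub_one, pow_one]
          field_simp
        rw [h3] at h2
        exact h2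
      rw [intervalIntegral.integral_eq_sub_of_hasDerivAt hd
        (Continuous.intervalIntegrable (by fun_prop) _ _)]
      have : σ * t + m - r = 0 := by rw [ht]; field_simp; ring
      rw [this]
      field_simp
      ring
    · exact (Continuous.integrableOn_Icc (by fun_prop)).mono_set Ioc_subset_Icc_self
    · refine (ae_restrict_iff' measurableSet_Ioc).2 (Filter.Eventually.of_forall fun a ha => ?_)
      have h3 := ha.1
      rw [ht, div_lt_iff₀ hσ] at h3
      simp only [Pi.zero_apply]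
      linarith
  · rw [Ioc_eq_empty (fun h => htr h.le)]
    simp

lemma arch_second (A η c : ℝ) (hc : 0 ≤ c) :
    ∫⁻ x, ENNReal.ofReal ((A + η * x) ^ 2 * c) ∂gaussianReal 0 1 =
      ENNReal.ofReal ((A ^ 2 + η ^ 2) * c) := by
  have hm : MemLp (fun x : ℝ => x) 2 (gaussianReal 0 1) := memLp_id_gaussianReal' 2 (by simp)
  have hi2 : Integrable (fun x : ℝ => x ^ 2) (gaussianReal 0 1) := hm.integrable_sq
  have hi1 : Integrable (fun x : ℝ => x) (gaussianReal 0 1) := hm.integrable (by norm_num)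
  have he1 : ∫ x, x ∂gaussianReal 0 1 = 0 := integral_id_gaussianReal
  have he2 : ∫ x, x ^ 2 ∂gaussianReal 0 1 = 1 := by
    have h := variance_fun_id_gaussianReal (μ := 0) (v := 1)
    rw [variance_eq_sub hm] at h
    simpa [he1] using h
  have hfun : (fun x : ℝ => (A + η * x) ^ 2 * c) =
      fun x : ℝ => (A ^ 2 * c + (2 * A * η * c) * x) + (η ^ 2 * c) * x ^ 2 := by
    funext x; ring
  rw [← ofReal_integral_eq_lintegral_ofReal]
  · congr 1
    have hi3 : Integrable (fun x : ℝ => A ^ 2 * c + (2 * A * η * c) * x) (gaussianReal 0 1) :=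
      (integrable_const _).add (hi1.const_mul _)
    rw [hfun, integral_add hi3 (hi2.const_mul _),
      integral_add (integrable_const _) (hi1.const_mul _), integral_const, integral_const_mul,
      integral_const_mul, he1, he2]
    simp
    ring
  · rw [hfun]
    exact ((integrable_const _).add (hi1.const_mul _)).add (hi2.const_mul _)
  · exact Filter.Eventually.of_forall fun x => by simp only [Pi.zero_apply]; positivity

theorem core_in (σ η : ℝ) (hσ : 0 < σ) :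
    ∫⁻ x, ∫⁻ a, ∫⁻ b, ∫⁻ c, ENNReal.ofReal (σ * a + η * x - √(a ^ 2 + b ^ 2 + c ^ 2))
      ∂gaussianReal 0 1 ∂gaussianReal 0 1 ∂gaussianReal 0 1 ∂gaussianReal 0 1
      ≤ ENNReal.ofReal (((σ - 1) ^ 2 / σ + η ^ 2 / (2 * σ)) / √(2 * π)) := by
  have h1 : ∀ x : ℝ, ∫⁻ a, ∫⁻ b, ∫⁻ c,
      ENNReal.ofReal (σ * a + η * x - √(a ^ 2 + b ^ 2 + c ^ 2))
      ∂gaussianReal 0 1 ∂gaussianReal 0 1 ∂gaussianReal 0 1 ≤
      ∫⁻ r in Ioi (0 : ℝ), ENNReal.ofReal ((√(2 * π))⁻¹ * (r * exp (-r ^ 2 / 2))) *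
        ENNReal.ofReal ((r * (σ - 1) + η * x) ^ 2 * (2 * σ)⁻¹) := by
    intro x
    rw [arch_main (fun a r => ENNReal.ofReal (σ * a + η * x - r)) (by fun_prop)]
    refine lintegral_mono fun r => ?_
    simp only
    gcongr
    rw [← div_eq_mul_inv]
    exact arch_ramp σ (η * x) r hσ
  refine (lintegral_mono h1).trans ?_
  rw [lintegral_lintegral_swap (by
    refine Measurable.aemeasurable ?_
    unfold Function.uncurry
    fun_prop)]
  have h2 : ∫⁻ r in Ioi (0 : ℝ), ∫⁻ x, ENNReal.ofReal ((√(2 * π))⁻¹ * (r * exp (-r ^ 2 / 2))) *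
        ENNReal.ofReal ((r * (σ - 1) + η * x) ^ 2 * (2 * σ)⁻¹) ∂gaussianReal 0 1 =
      ∫⁻ r in Ioi (0 : ℝ), ENNReal.ofReal (((√(2 * π))⁻¹ * (σ - 1) ^ 2 * (2 * σ)⁻¹) *
        (r ^ 3 * exp (-r ^ 2 / 2)) + ((√(2 * π))⁻¹ * η ^ 2 * (2 * σ)⁻¹) *
        (r * exp (-r ^ 2 / 2))) := by
    refine setLIntegral_congr_fun measurableSet_Ioi fun r hr => ?_
    have hr' : 0 < r := hr
    rw [lintegral_const_mul' _ _ ENNReal.ofReal_ne_top, arch_second _ _ _ (by positivity),
      ← ENNReal.ofReal_mul (by positivity)]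
    congr 1; ring
  rw [h2, arch_lint _ _ (by positivity) (by positivity)]
  apply le_of_eq
  congr 1
  field_simp

end Crest.Agent.R215
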