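import Mathlib

open MeasureTheory ProbabilityTheory Real

namespace Crest.Agent.R215

/-- lintegral against the standard Gaussian as a Lebesgue lintegral -/
theorem perp_lintegral_gauss (f : ℝ → ℝ) (hf : Measurable f) :
    ∫⁻ x, ENNReal.ofReal (f x) ∂gaussianReal 0 1
      = ∫⁻ x, ENNReal.ofReal ((√(2 * π))⁻¹ * rexp (-x ^ 2 / 2) * f x) := by
  rw [gaussianReal_of_var_ne_zero 0 one_ne_zero,
    lintegral_withDensity_eq_lintegral_mul _ (measurable_gaussianPDF 0 1) (by fun_prop)]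
  refine lintegral_congr fun x => ?_
  simp only [Pi.mul_apply, gaussianPDF, gaussianPDFReal]
  rw [← ENNReal.ofReal_mul (by positivity)]
  simp

/-- tail first moment of the standard Gaussian -/
theorem perp_tail (t : ℝ) (ht : 0 ≤ t) :
    ∫⁻ x, ENNReal.ofReal (if t < x then x else 0) ∂gaussianReal 0 1
      = ENNReal.ofReal ((√(2 * π))⁻¹ * rexp (-t ^ 2 / 2)) := by
  rw [perp_lintegral_gauss (fun x => if t < x then x else 0)
    (Measurable.ite measurableSet_Ioi measurable_id measurable_const)]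
  have h1 : (fun x : ℝ => ENNReal.ofReal ((√(2 * π))⁻¹ * rexp (-x ^ 2 / 2) *
      (if t < x then x else 0)))
      = (Set.Ioi t).indicator
        (fun x => ENNReal.ofReal ((√(2 * π))⁻¹ * rexp (-x ^ 2 / 2) * x)) := by
    funext x
    by_cases hx : t < x
    · rw [Set.indicator_of_mem (show x ∈ Set.Ioi t from hx), if_pos hx]
    · rw [Set.indicator_of_notMem (show x ∉ Set.Ioi t from hx), if_neg hx]; simp
  rw [h1, lintegral_indicator measurableSet_Ioi]
  have hder : ∀ x ∈ Set.Ici t, HasDerivAt (fun x : ℝ => -((√(2 * π))⁻¹ * rexp (-x ^ 2 / 2)))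
      ((√(2 * π))⁻¹ * rexp (-x ^ 2 / 2) * x) x := by
    intro x _
    have h2 : HasDerivAt (fun x : ℝ => -x ^ 2 / 2) (-x) x := by
      have := ((hasDerivAt_pow 2 x).fun_neg).div_const 2
      refine this.congr_deriv ?_
      simp; ring
    have h3 := ((h2.exp).const_mul (√(2 * π))⁻¹).fun_neg
    refine h3.congr_deriv ?_
    ring
  have hnn : ∀ x ∈ Set.Ioi t, 0 ≤ (√(2 * π))⁻¹ * rexp (-x ^ 2 / 2) * x := by
    intro x hx
    have : 0 ≤ x := ht.trans (le_of_lt hx)
    positivity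
  have hlim : Filter.Tendsto (fun x : ℝ => -((√(2 * π))⁻¹ * rexp (-x ^ 2 / 2)))
      Filter.atTop (nhds 0) := by
    have h2 : Filter.Tendsto (fun x : ℝ => -x ^ 2 / 2) Filter.atTop Filter.atBot := by
      apply Filter.Tendsto.atBot_div_const (by norm_num : (0:ℝ) < 2)
      exact Filter.tendsto_neg_atTop_atBot.comp (Filter.tendsto_pow_atTop two_ne_zero)
    have h3 := ((Real.tendsto_exp_atBot.comp h2).const_mul (√(2 * π))⁻¹).neg
    simpa using h3
  have hint := integrableOn_Ioi_deriv_of_nonneg' hder hnn hlim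
  have hval := integral_Ioi_of_hasDerivAt_of_nonneg' hder hnn hlim
  rw [← ofReal_integral_eq_lintegral_ofReal hint
    ((ae_restrict_iff' measurableSet_Ioi).2 (Filter.Eventually.of_forall hnn)), hval]
  simp

/-- Gaussian integral of a Gaussian -/
theorem perp_gauss (m : ℝ) (hm : 0 < m) :
    ∫⁻ a, ENNReal.ofReal (rexp (-(a / m) ^ 2 / 2)) ∂gaussianReal 0 1
      = ENNReal.ofReal (m / √(1 + m ^ 2)) := by
  rw [perp_lintegral_gauss _ (by fun_prop)]
  set b : ℝ := (1 + m ^ 2) / (2 * m ^ 2) with hb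
  have hb0 : 0 < b := by positivity
  have h1 : ∀ x : ℝ, (√(2 * π))⁻¹ * rexp (-x ^ 2 / 2) * rexp (-(x / m) ^ 2 / 2)
      = (√(2 * π))⁻¹ * rexp (-b * x ^ 2) := by
    intro x
    rw [mul_assoc, ← Real.exp_add]
    congr 2
    rw [hb]; field_simp; ring
  simp_rw [h1]
  rw [← ofReal_integral_eq_lintegral_ofReal ((integrable_exp_neg_mul_sq hb0).const_mul _)
    (Filter.Eventually.of_forall fun x => by positivity), integral_const_mul, integral_gaussian]
  congr 1
  have h2 : π / b = (2 * π) * (m ^ 2 / (1 + m ^ 2)) := by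
    rw [hb]; field_simp
  have hpi : 0 < √(2 * π) := Real.sqrt_pos.2 (by positivity)
  rw [h2, Real.sqrt_mul (x := 2 * π) (by positivity) (m ^ 2 / (1 + m ^ 2)),
    Real.sqrt_div (by positivity), Real.sqrt_sq hm.le]
  field_simp

/-- the final one-dimensional integral -/
theorem perp_final (l : ℝ) (hl : 0 ≤ l) :
    ∫⁻ m in Set.Ioc 0 l, ENNReal.ofReal ((√(2 * π))⁻¹ * (m / √(1 + m ^ 2)) ^ 3)
      = ENNReal.ofReal ((√(1 + l ^ 2) - 1) ^ 2 / √(1 + l ^ 2) / √(2 * π)) := by
  have hpos : ∀ m : ℝ, 0 < √(1 + m ^ 2) := fun m => Real.sqrt_pos.2 (by positivity)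
  have hcont : Continuous fun m : ℝ => (√(2 * π))⁻¹ * (m / √(1 + m ^ 2)) ^ 3 := by
    refine continuous_const.mul (Continuous.pow (Continuous.div continuous_id (by fun_prop) ?_) 3)
    exact fun m => (hpos m).ne'
  have hder : ∀ x ∈ Set.uIcc 0 l, HasDerivAt
      (fun m : ℝ => (√(2 * π))⁻¹ * (√(1 + m ^ 2) + (√(1 + m ^ 2))⁻¹))
      ((√(2 * π))⁻¹ * (x / √(1 + x ^ 2)) ^ 3) x := by
    intro x _
    have h1 : HasDerivAt (fun m : ℝ => 1 + m ^ 2) (2 * x) x := by
      simpa using (hasDerivAt_pow 2 x).const_add 1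
    have h2 := h1.sqrt (by positivity)
    have h3 := (h2.add (h2.inv (hpos x).ne')).const_mul (√(2 * π))⁻¹
    have h4 : √(1 + x ^ 2) ^ 2 = 1 + x ^ 2 := Real.sq_sqrt (by positivity)
    have h5 := hpos x
    have h6 : (x / √(1 + x ^ 2)) ^ 3 = 2 * x / (2 * √(1 + x ^ 2)) +
        -(2 * x / (2 * √(1 + x ^ 2))) / √(1 + x ^ 2) ^ 2 := by
      field_simp
      rw [h4]; ring
    rw [h6]
    exact h3
  have hval := intervalIntegral.integral_eq_sub_of_hasDerivAt hder (hcont.intervalIntegrable 0 l)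
  rw [intervalIntegral.integral_of_le hl] at hval
  rw [← ofReal_integral_eq_lintegral_ofReal (hcont.integrableOn_Ioc)
    ((ae_restrict_iff' measurableSet_Ioc).2 (Filter.Eventually.of_forall fun x hx => by
      have := hx.1.le
      have := hpos x
      positivity)), hval]
  congr 1
  have hpi : 0 < √(2 * π) := Real.sqrt_pos.2 (by positivity)
  have h5 := hpos l
  simp only [ne_eq, OfNat.ofNat_ne_zero, not_false_eq_true, zero_pow, add_zero, Real.sqrt_one,
    inv_one]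
  field_simp
  ring

/-- layer representation of the positive part -/
theorem perp_layer (l x r : ℝ) (hl : 0 ≤ l) (hr : 0 ≤ r) :
    ENNReal.ofReal (l * x - r)
      ≤ ∫⁻ m in Set.Ioc 0 l, ENNReal.ofReal (if r / m < x then x else 0) := by
  by_cases h : l * x - r ≤ 0
  · rw [ENNReal.ofReal_of_nonpos h]; exact zero_le
  push Not at h
  have hx : 0 < x := by
    by_contra hx
    push Not at hx
    nlinarith [mul_nonneg hl (neg_nonneg.2 hx)]
  have hsub : Set.Ioc (r / x) l ⊆ Set.Ioc 0 l :=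
    Set.Ioc_subset_Ioc_left (div_nonneg hr hx.le)
  refine le_trans ?_ (lintegral_mono_set hsub)
  have h1 : ∫⁻ m in Set.Ioc (r / x) l, ENNReal.ofReal (if r / m < x then x else 0)
      = ∫⁻ _m in Set.Ioc (r / x) l, ENNReal.ofReal x := by
    refine setLIntegral_congr_fun measurableSet_Ioc fun m hm => ?_
    have hm0 : 0 < m := lt_of_le_of_lt (div_nonneg hr hx.le) hm.1
    have : r / m < x := by
      rw [div_lt_iff₀ hm0]
      have := (div_lt_iff₀ hx).1 hm.1
      linarith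
    simp only [if_pos this]
  rw [h1, setLIntegral_const, Real.volume_Ioc, ← ENNReal.ofReal_mul hx.le]
  apply le_of_eq
  congr 1
  field_simp

theorem perp_meas_ite : Measurable fun q : ℝ × ℝ × ℝ =>
    ENNReal.ofReal (if q.1 / q.2.1 < q.2.2 then q.2.2 else 0) := by
  refine ENNReal.measurable_ofReal.comp (Measurable.ite ?_ (by fun_prop) measurable_const)
  exact measurableSet_lt (by fun_prop) (by fun_prop)

/-- integrate out `x` -/
theorem perp_x (l r : ℝ) (hl : 0 ≤ l) (hr : 0 ≤ r) :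
    ∫⁻ x, ENNReal.ofReal (l * x - r) ∂gaussianReal 0 1
      ≤ ∫⁻ m in Set.Ioc 0 l, ENNReal.ofReal ((√(2 * π))⁻¹ * rexp (-(r / m) ^ 2 / 2)) := by
  refine le_trans (lintegral_mono fun x => perp_layer l x r hl hr) ?_
  rw [lintegral_lintegral_swap]
  · refine le_of_eq (setLIntegral_congr_fun measurableSet_Ioc fun m hm => ?_)
    exact perp_tail (r / m) (div_nonneg hr hm.1.le)
  · have : Measurable fun q : ℝ × ℝ => ((r, q.2, q.1) : ℝ × ℝ × ℝ) := by fun_prop
    exact (perp_meas_ite.comp this).aemeasurable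

theorem core_perp (l : ℝ) (hl : 0 ≤ l) :
    ∫⁻ x, ∫⁻ a, ∫⁻ b, ∫⁻ c, ENNReal.ofReal (l * x - √(a ^ 2 + b ^ 2 + c ^ 2))
      ∂gaussianReal 0 1 ∂gaussianReal 0 1 ∂gaussianReal 0 1 ∂gaussianReal 0 1
      ≤ ENNReal.ofReal ((√(1 + l ^ 2) - 1) ^ 2 / √(1 + l ^ 2) / √(2 * π)) := by
  set γ : Measure ℝ := gaussianReal 0 1 with hγ
  have h1 : ∀ x : ℝ, ∫⁻ a, ∫⁻ b, ∫⁻ c, ENNReal.ofReal (l * x - √(a ^ 2 + b ^ 2 + c ^ 2)) ∂γ ∂γ ∂γ
      = ∫⁻ p : ℝ × ℝ × ℝ, ENNReal.ofReal (l * x - √(p.1 ^ 2 + p.2.1 ^ 2 + p.2.2 ^ 2))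
        ∂(γ.prod (γ.prod γ)) := by
    intro x
    rw [lintegral_prod _ (Measurable.aemeasurable (by fun_prop))]
    refine lintegral_congr fun a => ?_
    rw [lintegral_prod _ (Measurable.aemeasurable (by fun_prop))]
  simp_rw [h1]
  rw [lintegral_lintegral_swap (Measurable.aemeasurable (by
    unfold Function.uncurry; fun_prop))]
  refine le_trans (lintegral_mono fun p => perp_x l _ hl (Real.sqrt_nonneg _)) ?_
  rw [lintegral_lintegral_swap (Measurable.aemeasurable (by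
    unfold Function.uncurry; fun_prop)), ← perp_final l hl]
  refine le_of_eq (setLIntegral_congr_fun measurableSet_Ioc fun m hm => ?_)
  have hm0 : 0 < m := hm.1
  have h2 : ∀ p : ℝ × ℝ × ℝ, ENNReal.ofReal ((√(2 * π))⁻¹ *
      rexp (-(√(p.1 ^ 2 + p.2.1 ^ 2 + p.2.2 ^ 2) / m) ^ 2 / 2))
      = ENNReal.ofReal (√(2 * π))⁻¹ * (ENNReal.ofReal (rexp (-(p.1 / m) ^ 2 / 2)) *
        (ENNReal.ofReal (rexp (-(p.2.1 / m) ^ 2 / 2)) *
          ENNReal.ofReal (rexp (-(p.2.2 / m) ^ 2 / 2)))) := by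
    intro p
    rw [← ENNReal.ofReal_mul (by positivity), ← ENNReal.ofReal_mul (by positivity),
      ← ENNReal.ofReal_mul (by positivity), ← Real.exp_add, ← Real.exp_add]
    congr 3
    rw [div_pow, Real.sq_sqrt (by positivity)]
    ring
  simp only [h2]
  rw [lintegral_const_mul _ (by fun_prop),
    lintegral_prod_mul (f := fun a : ℝ => ENNReal.ofReal (rexp (-(a / m) ^ 2 / 2)))
      (g := fun q : ℝ × ℝ => ENNReal.ofReal (rexp (-(q.1 / m) ^ 2 / 2)) *
          ENNReal.ofReal (rexp (-(q.2 / m) ^ 2 / 2)))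
      (Measurable.aemeasurable (by fun_prop)) (Measurable.aemeasurable (by fun_prop)),
    lintegral_prod_mul (f := fun a : ℝ => ENNReal.ofReal (rexp (-(a / m) ^ 2 / 2)))
      (g := fun a : ℝ => ENNReal.ofReal (rexp (-(a / m) ^ 2 / 2)))
      (Measurable.aemeasurable (by fun_prop)) (Measurable.aemeasurable (by fun_prop)),
    hγ, perp_gauss m hm0]
  have h3 : 0 ≤ m / √(1 + m ^ 2) := by positivity
  rw [← ENNReal.ofReal_mul h3, ← ENNReal.ofReal_mul h3, ← ENNReal.ofReal_mul (by positivity)]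
  congr 1
  ring

end Crest.Agent.R215
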