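import Crest.Agent.R215.Frame
import Crest.Agent.R215.CoreArch
import Crest.Agent.R215.CorePerp

/-! Cone ("cap") integrals relative to a three-dimensional subspace. -/

open MeasureTheory ProbabilityTheory Real Module
open scoped RealInnerProductSpace

namespace Crest.Agent.R215

variable {E : Type*} [NormedAddCommGroup E] [InnerProductSpace ℝ E] [FiniteDimensional ℝ E]

theorem exists_unit_dir (K : Submodule ℝ E) (hK : 0 < finrank ℝ K) {w : E} (hw : w ∈ K) :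
    ∃ e ∈ K, ‖e‖ = 1 ∧ w = ‖w‖ • e := by
  rcases eq_or_ne w 0 with rfl | h0
  · have : Nontrivial K := Module.finrank_pos_iff.mp hK
    obtain ⟨x, hx⟩ := exists_ne (0 : K)
    have hx' : (x : E) ≠ 0 := fun h => hx (Subtype.ext h)
    have hn : 0 < ‖(x : E)‖ := norm_pos_iff.mpr hx'
    refine ⟨‖(x : E)‖⁻¹ • (x : E), K.smul_mem _ x.2, ?_, by simp⟩
    rw [norm_smul, norm_inv, norm_norm, inv_mul_cancel₀ hn.ne']
  · have hn : 0 < ‖w‖ := norm_pos_iff.mpr h0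
    refine ⟨‖w‖⁻¹ • w, K.smul_mem _ hw, ?_, ?_⟩
    · rw [norm_smul, norm_inv, norm_norm, inv_mul_cancel₀ hn.ne']
    · rw [smul_smul, mul_inv_cancel₀ hn.ne', one_smul]

theorem exists_frame (P : Submodule ℝ E) (hP : finrank ℝ P = 3) (hE : 4 ≤ finrank ℝ E)
    {u w : E} (hu : u ∈ P) (hw : w ∈ Pᗮ) :
    ∃ e : Fin 4 → E, Orthonormal ℝ e ∧ w = ‖w‖ • e 0 ∧ u = ‖u‖ • e 1 ∧
      ∀ g, ‖P.starProjection g‖ = √(⟪e 1, g⟫ ^ 2 + ⟪e 2, g⟫ ^ 2 + ⟪e 3, g⟫ ^ 2) := by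
  obtain ⟨e1, he1P, he1, hue⟩ := exists_unit_dir P (by omega) hu
  have hPo : 0 < finrank ℝ Pᗮ := by
    have := P.finrank_add_finrank_orthogonal
    omega
  obtain ⟨e0, he0P, he0, hwe⟩ := exists_unit_dir Pᗮ hPo hw
  have hon : Orthonormal ℝ (({0} : Set (Fin 3)).domRestrict (fun _ : Fin 3 => (⟨e1, he1P⟩ : P))) := by
    constructor
    · intro i; exact he1
    · intro i j hij
      exact absurd (Subtype.ext (i.2.trans j.2.symm)) hij
  obtain ⟨b, hb⟩ := Orthonormal.exists_orthonormalBasis_extension_of_card_eq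
    (ι := Fin 3) (by simpa using hP) hon
  have hb0 : (b 0 : E) = e1 := by rw [hb 0 rfl]
  have hbon : Orthonormal ℝ (fun i => (b i : E)) := b.orthonormal.comp_linearIsometry P.subtypeₗᵢ
  refine ⟨Matrix.vecCons e0 (fun i => (b i : E)), ?_, hwe, ?_, ?_⟩
  · rw [orthonormal_vecCons_iff]
    refine ⟨he0, fun i => ?_, hbon⟩
    rw [real_inner_comm]
    exact (Submodule.mem_orthogonal P e0).1 he0P _ (b i).2
  · change u = ‖u‖ • (b 0 : E)
    rw [hb0]; exact hue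
  · intro g
    change _ = √(⟪(b 0 : E), g⟫ ^ 2 + ⟪(b 1 : E), g⟫ ^ 2 + ⟪(b 2 : E), g⟫ ^ 2)
    have h1 := b.sum_sq_inner_right (P.orthogonalProjectionOnto g)
    simp only [Submodule.inner_orthogonalProjectionOnto_eq_of_mem_left, Fin.sum_univ_three] at h1
    rw [h1, Real.sqrt_sq (norm_nonneg _)]
    rfl

variable [MeasurableSpace E] [BorelSpace E]

theorem capK (P : Submodule ℝ E) (hP : finrank ℝ P = 3) (hE : 4 ≤ finrank ℝ E) :
    √(2 * π) * ∫ g, ‖P.starProjection g‖ ∂stdGaussian E ≤ 4 := by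
  have hpos : 0 < √(2 * π) := Real.sqrt_pos.mpr (by positivity)
  obtain ⟨e, he, -, -, hρ⟩ := exists_frame P hP hE P.zero_mem Pᗮ.zero_mem
  have h1 : ∫ g, max ‖P.starProjection g‖ 0 ∂stdGaussian E ≤ 4 / √(2 * π) := by
    apply integral_posPart_le (by fun_prop) (by positivity)
    simp_rw [hρ]
    rw [lintegral_frame4 he
      (fun p => ENNReal.ofReal (√(p.2.1 ^ 2 + p.2.2.1 ^ 2 + p.2.2.2 ^ 2))) (by fun_prop)]
    simp only [lintegral_const, measure_univ, mul_one]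
    exact core_K
  simp only [norm_nonneg, sup_of_le_left] at h1
  rw [le_div_iff₀ hpos] at h1
  linarith

theorem capIn (P : Submodule ℝ E) (hP : finrank ℝ P = 3) (hE : 4 ≤ finrank ℝ E)
    {u w : E} (hu : u ∈ P) (hw : w ∈ Pᗮ) (hu0 : 0 < ‖u‖) :
    √(2 * π) * ∫ g, max (⟪u + w, g⟫ - ‖P.starProjection g‖) 0 ∂stdGaussian E ≤
      (‖u‖ - 1) ^ 2 / ‖u‖ + ‖w‖ ^ 2 / (2 * ‖u‖) := by
  have hpos : 0 < √(2 * π) := Real.sqrt_pos.mpr (by positivity)
  obtain ⟨e, he, hwe, hue, hρ⟩ := exists_frame P hP hE hu hw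
  have h1 : ∫ g, max (⟪u + w, g⟫ - ‖P.starProjection g‖) 0 ∂stdGaussian E ≤
      ((‖u‖ - 1) ^ 2 / ‖u‖ + ‖w‖ ^ 2 / (2 * ‖u‖)) / √(2 * π) := by
    apply integral_posPart_le (by fun_prop) (by positivity)
    have h2 : ∀ g, ⟪u + w, g⟫ = ‖u‖ * ⟪e 1, g⟫ + ‖w‖ * ⟪e 0, g⟫ := by
      intro g
      rw [inner_add_left, ← real_inner_smul_left, ← real_inner_smul_left, ← hue, ← hwe]
    simp_rw [hρ, h2]
    rw [lintegral_frame4 he
      (fun p => ENNReal.ofReal (‖u‖ * p.2.1 + ‖w‖ * p.1 -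
        √(p.2.1 ^ 2 + p.2.2.1 ^ 2 + p.2.2.2 ^ 2))) (by fun_prop)]
    exact core_in _ _ hu0
  rw [le_div_iff₀ hpos] at h1
  linarith

theorem ofReal_supermod {A A' B B' : ℝ} (h : (A' ≤ A ∧ B ≤ B') ∨ (A ≤ A' ∧ B' ≤ B)) :
    ENNReal.ofReal (A' - B) + ENNReal.ofReal (A - B') ≤
      ENNReal.ofReal (A - B) + ENNReal.ofReal (A' - B') := by
  have key : max (A' - B) 0 + max (A - B') 0 ≤ max (A - B) 0 + max (A' - B') 0 := by
    rcases h with ⟨h1, h2⟩ | ⟨h1, h2⟩ <;>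
    · simp only [max_def]
      split_ifs <;> linarith
  have e : ∀ x : ℝ, ENNReal.ofReal x = ENNReal.ofReal (max x 0) := by
    intro x
    rcases le_total x 0 with h | h
    · rw [max_eq_right h, ENNReal.ofReal_of_nonpos h, ENNReal.ofReal_zero]
    · rw [max_eq_left h]
  rw [e (A' - B), e (A - B'), e (A - B), e (A' - B'),
    ← ENNReal.ofReal_add (le_max_right _ _) (le_max_right _ _),
    ← ENNReal.ofReal_add (le_max_right _ _) (le_max_right _ _)]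
  exact ENNReal.ofReal_le_ofReal key

theorem ofReal_abs_sub {x r : ℝ} (hr : 0 ≤ r) :
    ENNReal.ofReal (|x| - r) = ENNReal.ofReal (x - r) + ENNReal.ofReal (-x - r) := by
  rcases le_total 0 x with h | h
  · rw [abs_of_nonneg h, ENNReal.ofReal_of_nonpos (show -x - r ≤ 0 by linarith), add_zero]
  · rw [abs_of_nonpos h, ENNReal.ofReal_of_nonpos (show x - r ≤ 0 by linarith), zero_add]

theorem ennreal_le_of_add_self_le {a b : ENNReal} (h : a + a ≤ b + b) : a ≤ b := by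
  by_contra hc
  push Not at hc
  exact absurd h (not_le.mpr (ENNReal.add_lt_add hc hc))

theorem lintegral_abs_sub (v : E) (r : E → ℝ) (hr : Measurable r) (hr0 : ∀ g, 0 ≤ r g)
    (hrn : ∀ g, r (-g) = r g) :
    ∫⁻ g, ENNReal.ofReal (|⟪v, g⟫| - r g) ∂stdGaussian E =
      ∫⁻ g, ENNReal.ofReal (⟪v, g⟫ - r g) ∂stdGaussian E +
        ∫⁻ g, ENNReal.ofReal (⟪v, g⟫ - r g) ∂stdGaussian E := by
  have h1 := (measurePreserving_neg_gauss (E := E)).lintegral_comp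
    (f := fun g => ENNReal.ofReal (⟪v, g⟫ - r g)) (by fun_prop)
  simp only [inner_neg_right, hrn] at h1
  simp_rw [ofReal_abs_sub (hr0 _)]
  rw [lintegral_add_left (by fun_prop), h1]

theorem mixed_le {e : Fin 4 → E} (he : Orthonormal ℝ e) {α β l : ℝ} (hαβ : α ^ 2 + β ^ 2 = 1)
    (hl : 0 ≤ l) :
    ∫⁻ g, ENNReal.ofReal (⟪l • (β • e 0 + α • e 1), g⟫ -
        √(⟪e 1, g⟫ ^ 2 + ⟪e 2, g⟫ ^ 2 + ⟪e 3, g⟫ ^ 2)) ∂stdGaussian E ≤
      ENNReal.ofReal ((√(1 + l ^ 2) - 1) ^ 2 / √(1 + l ^ 2) / √(2 * π)) := by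
  have hon := orthonormal_iff_ite.1 he
  have h00 : ⟪e 0, e 0⟫ = 1 := by simpa using hon 0 0
  have h11 : ⟪e 1, e 1⟫ = 1 := by simpa using hon 1 1
  have h01 : ⟪e 0, e 1⟫ = 0 := by simpa using hon 0 1
  have h10 : ⟪e 1, e 0⟫ = 0 := by simpa using hon 1 0
  have h02 : ⟪e 0, e 2⟫ = 0 := by simpa using hon 0 2
  have h03 : ⟪e 0, e 3⟫ = 0 := by simpa using hon 0 3
  have h12 : ⟪e 1, e 2⟫ = 0 := by simpa using hon 1 2
  have h13 : ⟪e 1, e 3⟫ = 0 := by simpa using hon 1 3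
  have h23 : ⟪e 2, e 3⟫ = 0 := by simpa using hon 2 3
  have n2 : ‖e 2‖ = 1 := he.1 2
  have n3 : ‖e 3‖ = 1 := he.1 3
  have he' : Orthonormal ℝ ![β • e 0 + α • e 1, α • e 0 - β • e 1, e 2, e 3] := by
    have a1 : ‖β • e 0 + α • e 1‖ = 1 := by
      have : ‖β • e 0 + α • e 1‖ ^ 2 = 1 ^ 2 := by
        rw [← real_inner_self_eq_norm_sq]
        simp only [inner_add_left, inner_add_right, real_inner_smul_left, real_inner_smul_right,
          h00, h11, h01, h10]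
        linarith
      exact (sq_eq_sq₀ (norm_nonneg _) zero_le_one).1 this
    have a2 : ‖α • e 0 - β • e 1‖ = 1 := by
      have : ‖α • e 0 - β • e 1‖ ^ 2 = 1 ^ 2 := by
        rw [← real_inner_self_eq_norm_sq]
        simp only [inner_sub_left, inner_sub_right, real_inner_smul_left, real_inner_smul_right,
          h00, h11, h01, h10]
        linarith
      exact (sq_eq_sq₀ (norm_nonneg _) zero_le_one).1 this
    simp only [orthonormal_vecCons_iff, a1, a2, n2, n3, true_and, Fin.forall_fin_succ,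
      Matrix.cons_val_zero, Matrix.cons_val_succ, IsEmpty.forall_iff, and_true,
      inner_add_left, inner_sub_left, inner_sub_right, real_inner_smul_left,
      real_inner_smul_right, h00, h11, h01, h10, h02, h03, h12, h13, h23]
    refine ⟨⟨by ring, by ring, by ring⟩, ⟨by ring, by ring⟩, ?_⟩
    exact Orthonormal.of_isEmpty _
  -- the two test functions
  set f1 : ℝ × ℝ × ℝ × ℝ → ENNReal := fun p =>
    ENNReal.ofReal (|l * p.1| - √(p.2.1 ^ 2 + p.2.2.1 ^ 2 + p.2.2.2 ^ 2)) with hf1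
  set f2 : ℝ × ℝ × ℝ × ℝ → ENNReal := fun p =>
    ENNReal.ofReal (|l * (β * p.1 + α * p.2.1)| - √(p.2.1 ^ 2 + p.2.2.1 ^ 2 + p.2.2.2 ^ 2))
    with hf2
  have m1 : Measurable f1 := by rw [hf1]; fun_prop
  have m2 : Measurable f2 := by rw [hf2]; fun_prop
  have A1 := lintegral_frame4 he f1 m1
  have A2 := lintegral_frame4 he f2 m2
  have B1 := lintegral_frame4 he' f1 m1
  have B2 := lintegral_frame4 he' f2 m2
  simp only [Matrix.cons_val_zero, Matrix.cons_val_one, Matrix.cons_val] at B1 B2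
  have hpt : ∀ g : E,
      f2 (⟪e 0, g⟫, ⟪e 1, g⟫, ⟪e 2, g⟫, ⟪e 3, g⟫) +
        f2 (⟪β • e 0 + α • e 1, g⟫, ⟪α • e 0 - β • e 1, g⟫, ⟪e 2, g⟫, ⟪e 3, g⟫) ≤
      f1 (⟪e 0, g⟫, ⟪e 1, g⟫, ⟪e 2, g⟫, ⟪e 3, g⟫) +
        f1 (⟪β • e 0 + α • e 1, g⟫, ⟪α • e 0 - β • e 1, g⟫, ⟪e 2, g⟫, ⟪e 3, g⟫) := by
    intro g
    simp only [hf1, hf2, inner_add_left, inner_sub_left, real_inner_smul_left]
    generalize ⟪e 0, g⟫ = x
    generalize ⟪e 1, g⟫ = a
    generalize ⟪e 2, g⟫ = b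
    generalize ⟪e 3, g⟫ = c
    have hx : β * (β * x + α * a) + α * (α * x - β * a) = x := by
      linear_combination x * hαβ
    rw [hx]
    have hsq : (α * x - β * a) ^ 2 + (β * x + α * a) ^ 2 = a ^ 2 + x ^ 2 := by
      linear_combination (a ^ 2 + x ^ 2) * hαβ
    apply ofReal_supermod
    rw [abs_mul, abs_mul, abs_of_nonneg hl]
    rcases le_total ((β * x + α * a) ^ 2) (x ^ 2) with h | h
    · left
      exact ⟨mul_le_mul_of_nonneg_left (sq_le_sq.1 h) hl, Real.sqrt_le_sqrt (by linarith)⟩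
    · right
      exact ⟨mul_le_mul_of_nonneg_left (sq_le_sq.1 h) hl, Real.sqrt_le_sqrt (by linarith)⟩
  have hint := lintegral_mono (μ := stdGaussian E) hpt
  have mm : Measurable fun g : E => (⟪e 0, g⟫, ⟪e 1, g⟫, ⟪e 2, g⟫, ⟪e 3, g⟫) := by fun_prop
  have m1' : Measurable fun g : E => f1 (⟪e 0, g⟫, ⟪e 1, g⟫, ⟪e 2, g⟫, ⟪e 3, g⟫) := m1.comp mm
  have m2' : Measurable fun g : E => f2 (⟪e 0, g⟫, ⟪e 1, g⟫, ⟪e 2, g⟫, ⟪e 3, g⟫) := m2.comp mm
  rw [lintegral_add_left m2', lintegral_add_left m1', B1, B2, ← A1, ← A2] at hint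
  have hle := ennreal_le_of_add_self_le hint
  have c1 := lintegral_abs_sub (l • e 0)
    (fun g => √(⟪e 1, g⟫ ^ 2 + ⟪e 2, g⟫ ^ 2 + ⟪e 3, g⟫ ^ 2)) (by fun_prop)
    (fun g => Real.sqrt_nonneg _) (fun g => by simp [inner_neg_right])
  have c2 := lintegral_abs_sub (l • (β • e 0 + α • e 1))
    (fun g => √(⟪e 1, g⟫ ^ 2 + ⟪e 2, g⟫ ^ 2 + ⟪e 3, g⟫ ^ 2)) (by fun_prop)
    (fun g => Real.sqrt_nonneg _) (fun g => by simp [inner_neg_right])
  have d1 : ∫⁻ g, ENNReal.ofReal (|⟪l • (β • e 0 + α • e 1), g⟫| -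
      √(⟪e 1, g⟫ ^ 2 + ⟪e 2, g⟫ ^ 2 + ⟪e 3, g⟫ ^ 2)) ∂stdGaussian E ≤
      ∫⁻ g, ENNReal.ofReal (|⟪l • e 0, g⟫| -
      √(⟪e 1, g⟫ ^ 2 + ⟪e 2, g⟫ ^ 2 + ⟪e 3, g⟫ ^ 2)) ∂stdGaussian E := by
    simpa only [hf1, hf2, inner_add_left, real_inner_smul_left] using hle
  rw [c1, c2] at d1
  refine (ennreal_le_of_add_self_le d1).trans ?_
  simp_rw [real_inner_smul_left]
  rw [lintegral_frame4 he
    (fun p => ENNReal.ofReal (l * p.1 - √(p.2.1 ^ 2 + p.2.2.1 ^ 2 + p.2.2.2 ^ 2))) (by fun_prop)]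
  exact core_perp l hl

theorem capPerp (P : Submodule ℝ E) (hP : finrank ℝ P = 3) (hE : 4 ≤ finrank ℝ E) (v : E) :
    √(2 * π) * ∫ g, max (⟪v, g⟫ - ‖P.starProjection g‖) 0 ∂stdGaussian E ≤
      (√(1 + ‖v‖ ^ 2) - 1) ^ 2 / √(1 + ‖v‖ ^ 2) := by
  have hpos : 0 < √(2 * π) := Real.sqrt_pos.mpr (by positivity)
  obtain ⟨e, he, hwe, hue, hρ⟩ := exists_frame P hP hE (P.starProjection_apply_mem v)
    (Pᗮ.starProjection_apply_mem v)
  have hpy := P.norm_sq_eq_add_norm_sq_starProjection v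
  have hv := P.starProjection_add_starProjection_orthogonal v
  obtain ⟨α, β, hαβ, hvv⟩ : ∃ α β : ℝ, α ^ 2 + β ^ 2 = 1 ∧ v = ‖v‖ • (β • e 0 + α • e 1) := by
    rcases eq_or_ne v 0 with h0 | h0
    · exact ⟨1, 0, by norm_num, by simp [h0]⟩
    · have hn : 0 < ‖v‖ := norm_pos_iff.mpr h0
      refine ⟨‖P.starProjection v‖ / ‖v‖, ‖Pᗮ.starProjection v‖ / ‖v‖, ?_, ?_⟩
      · field_simp; linarith
      · rw [smul_add, smul_smul, smul_smul, mul_div_cancel₀ _ hn.ne', mul_div_cancel₀ _ hn.ne',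
          ← hwe, ← hue, add_comm, hv]
  have h1 : ∫ g, max (⟪v, g⟫ - ‖P.starProjection g‖) 0 ∂stdGaussian E ≤
      (√(1 + ‖v‖ ^ 2) - 1) ^ 2 / √(1 + ‖v‖ ^ 2) / √(2 * π) := by
    apply integral_posPart_le (by fun_prop) (by positivity)
    have h2 := mixed_le he hαβ (norm_nonneg v)
    rw [← hvv] at h2
    simp_rw [hρ]
    exact h2
  rw [le_div_iff₀ hpos] at h1
  linarith

end Crest.Agent.R215
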