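import Mathlib

/-! # Row 215: a Gaussian small-ball bound for a triangle -/

set_option autoImplicit false

open MeasureTheory ProbabilityTheory Real Set

namespace Crest.Agent.R215

/-- Fundamental theorem of calculus for a lower integral over a bounded interval. -/
theorem small_lint_Ioc (f F : ℝ → ℝ) {a b : ℝ} (hab : a ≤ b) (hf : Continuous f)
    (hpos : ∀ x ∈ Ioc a b, 0 ≤ f x) (hF : ∀ x, HasDerivAt F (f x) x) :
    ∫⁻ x in Ioc a b, ENNReal.ofReal (f x) = ENNReal.ofReal (F b - F a) := by
  rw [← ofReal_integral_eq_lintegral_ofReal (hf.integrableOn_Icc.mono_set Ioc_subset_Icc_self)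
    ((ae_restrict_iff' measurableSet_Ioc).2 (Filter.Eventually.of_forall hpos)),
    ← intervalIntegral.integral_of_le hab,
    intervalIntegral.integral_eq_sub_of_hasDerivAt (fun x _ => hF x) (hf.intervalIntegrable a b)]

/-- The inner Lebesgue integral, split at `c` and `R - c`. -/
theorem small_inner (u R c : ℝ) (hu : 0 ≤ u) (hc : 0 ≤ c) (hcR : 2 * c ≤ R) :
    ∫⁻ v, ENNReal.ofReal (min u (min v (R - v))) ≤ ENNReal.ofReal (c ^ 2 + u * (R - 2 * c)) := by
  have h1 : ∫⁻ v in Ioc 0 c, ENNReal.ofReal v = ENNReal.ofReal (c ^ 2 / 2) := by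
    rw [small_lint_Ioc (fun v => v) (fun v => v ^ 2 / 2) hc continuous_id (fun x hx => hx.1.le)
      (fun x => by simpa using ((hasDerivAt_id x).pow 2).div_const 2)]
    congr 1; ring
  have h2 : ∫⁻ _ in Ioc c (R - c), ENNReal.ofReal u = ENNReal.ofReal (u * (R - 2 * c)) := by
    rw [small_lint_Ioc (fun _ => u) (fun v => u * v) (by linarith) continuous_const
      (fun x _ => hu) (fun x => by simpa using (hasDerivAt_id x).const_mul u)]
    congr 1; ring
  have h3 : ∫⁻ v in Ioc (R - c) R, ENNReal.ofReal (R - v) = ENNReal.ofReal (c ^ 2 / 2) := by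
    rw [small_lint_Ioc (fun v => R - v) (fun v => R * v - v ^ 2 / 2) (by linarith)
      (by fun_prop) (fun x hx => by linarith [hx.2])
      (fun x => by
        have := ((hasDerivAt_id x).const_mul R).sub (((hasDerivAt_id x).pow 2).div_const 2)
        refine HasDerivAt.congr_deriv this ?_
        simp)]
    congr 1; ring
  have hm : u * (R - 2 * c) ≥ 0 := mul_nonneg hu (by linarith)
  calc ∫⁻ v, ENNReal.ofReal (min u (min v (R - v)))
      ≤ ∫⁻ v, ((Ioc 0 c).indicator (fun v => ENNReal.ofReal v) v +
          (Ioc c (R - c)).indicator (fun _ => ENNReal.ofReal u) v +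
          (Ioc (R - c) R).indicator (fun v => ENNReal.ofReal (R - v)) v) := by
        refine lintegral_mono fun v => ?_
        by_cases h0 : v ≤ 0
        · rw [ENNReal.ofReal_of_nonpos ((min_le_right _ _).trans ((min_le_left _ _).trans h0))]
          exact zero_le
        by_cases hR : R < v
        · rw [ENNReal.ofReal_of_nonpos ((min_le_right _ _).trans ((min_le_right _ _).trans
            (by linarith)))]
          exact zero_le
        push Not at h0 hR
        by_cases ha : v ≤ c
        · rw [indicator_of_mem (show v ∈ Ioc 0 c from ⟨h0, ha⟩)]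
          refine le_trans ?_ (le_self_add.trans le_self_add)
          exact ENNReal.ofReal_le_ofReal ((min_le_right _ _).trans (min_le_left _ _))
        by_cases hb : v ≤ R - c
        · rw [indicator_of_mem (show v ∈ Ioc c (R - c) from ⟨not_le.1 ha, hb⟩)]
          refine le_trans ?_ (le_add_self.trans le_self_add)
          exact ENNReal.ofReal_le_ofReal (min_le_left _ _)
        · rw [indicator_of_mem (show v ∈ Ioc (R - c) R from ⟨not_le.1 hb, hR⟩)]
          refine le_trans ?_ le_add_self
          exact ENNReal.ofReal_le_ofReal ((min_le_right _ _).trans (min_le_right _ _))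
    _ = ENNReal.ofReal (c ^ 2 / 2) + ENNReal.ofReal (u * (R - 2 * c)) +
          ENNReal.ofReal (c ^ 2 / 2) := by
        rw [lintegral_add_right _ (Measurable.indicator (by fun_prop) measurableSet_Ioc),
          lintegral_add_right _ (Measurable.indicator (by fun_prop) measurableSet_Ioc),
          lintegral_indicator measurableSet_Ioc, lintegral_indicator measurableSet_Ioc,
          lintegral_indicator measurableSet_Ioc, h1, h2, h3]
    _ = ENNReal.ofReal (c ^ 2 + u * (R - 2 * c)) := by
        rw [← ENNReal.ofReal_add (by positivity) hm, ← ENNReal.ofReal_add (by positivity)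
          (by positivity)]
        congr 1; ring

/-- The volume of the pyramid over the triangle. -/
theorem small_pyramid (Q : ℝ) :
    ∫⁻ u, ∫⁻ v, ENNReal.ofReal (min u (min v (Q - u - v))) ≤ ENNReal.ofReal (Q ^ 3 / 18) := by
  have hz : ∀ u, (u ≤ 0 ∨ Q ≤ u) → ∫⁻ v, ENNReal.ofReal (min u (min v (Q - u - v))) = 0 := by
    intro u hu
    have : ∀ v, ENNReal.ofReal (min u (min v (Q - u - v))) = 0 := by
      intro v
      refine ENNReal.ofReal_of_nonpos ?_
      rcases hu with hu | hu
      · exact (min_le_left _ _).trans hu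
      · refine (min_le_right _ _).trans ?_
        rcases le_total v 0 with hv | hv
        · exact (min_le_left _ _).trans hv
        · exact (min_le_right _ _).trans (by linarith)
    simp [this]
  rcases le_total Q 0 with hQ | hQ
  · have : ∀ u, ∫⁻ v, ENNReal.ofReal (min u (min v (Q - u - v))) = 0 := by
      intro u
      refine hz u ?_
      rcases le_total u 0 with hu | hu
      · exact Or.inl hu
      · exact Or.inr (hQ.trans hu)
    simp only [this, lintegral_zero, zero_le]
  have h1 : ∫⁻ u in Ioc 0 (Q / 3), ENNReal.ofReal (Q * u - 2 * u ^ 2) =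
      ENNReal.ofReal (Q ^ 3 / 18 - 2 * Q ^ 3 / 81) := by
    rw [small_lint_Ioc (fun u => Q * u - 2 * u ^ 2) (fun u => Q * u ^ 2 / 2 - 2 * u ^ 3 / 3)
      (by linarith) (by fun_prop) (fun x hx => by nlinarith [hx.1, hx.2])
      (fun x => by
        have := ((((hasDerivAt_id x).pow 2).const_mul Q).div_const 2).sub
          ((((hasDerivAt_id x).pow 3).const_mul 2).div_const 3)
        refine HasDerivAt.congr_deriv this ?_
        simp; ring)]
    congr 1; ring
  have h2 : ∫⁻ u in Ioc (Q / 3) Q, ENNReal.ofReal ((Q - u) ^ 2 / 4) =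
      ENNReal.ofReal (2 * Q ^ 3 / 81) := by
    rw [small_lint_Ioc (fun u => (Q - u) ^ 2 / 4) (fun u => -(Q - u) ^ 3 / 12)
      (by linarith) (by fun_prop) (fun x hx => by positivity)
      (fun x => by
        have := ((((hasDerivAt_id x).const_sub Q).pow 3).neg).div_const 12
        refine HasDerivAt.congr_deriv this ?_
        simp; ring)]
    congr 1; ring
  have hQ3 : 0 ≤ Q ^ 3 := by positivity
  calc ∫⁻ u, ∫⁻ v, ENNReal.ofReal (min u (min v (Q - u - v)))
      ≤ ∫⁻ u, ((Ioc 0 (Q / 3)).indicator (fun u => ENNReal.ofReal (Q * u - 2 * u ^ 2)) u +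
          (Ioc (Q / 3) Q).indicator (fun u => ENNReal.ofReal ((Q - u) ^ 2 / 4)) u) := by
        refine lintegral_mono fun u => ?_
        by_cases h0 : u ≤ 0
        · rw [hz u (Or.inl h0)]; exact zero_le
        by_cases hR : Q ≤ u
        · rw [hz u (Or.inr hR)]; exact zero_le
        push Not at h0 hR
        by_cases ha : u ≤ Q / 3
        · rw [indicator_of_mem (show u ∈ Ioc 0 (Q / 3) from ⟨h0, ha⟩)]
          refine le_trans ?_ le_self_add
          refine (small_inner u (Q - u) u h0.le h0.le (by linarith)).trans (le_of_eq ?_)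
          congr 1; ring
        · rw [indicator_of_mem (show u ∈ Ioc (Q / 3) Q from ⟨not_le.1 ha, hR.le⟩)]
          refine le_trans ?_ le_add_self
          refine (small_inner u (Q - u) ((Q - u) / 2) h0.le (by linarith) (by linarith)).trans
            (le_of_eq ?_)
          congr 1; ring
    _ = ENNReal.ofReal (Q ^ 3 / 18 - 2 * Q ^ 3 / 81) + ENNReal.ofReal (2 * Q ^ 3 / 81) := by
        rw [lintegral_add_right _ (Measurable.indicator (by fun_prop) measurableSet_Ioc),
          lintegral_indicator measurableSet_Ioc, lintegral_indicator measurableSet_Ioc, h1, h2]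
    _ = ENNReal.ofReal (Q ^ 3 / 18) := by
        rw [← ENNReal.ofReal_add (by linarith) (by linarith)]
        congr 1; ring

/-- Affine substitution in a Lebesgue integral. -/
theorem small_subst (f : ℝ → ENNReal) (c β : ℝ) (hβ : 0 < β) :
    ∫⁻ w, f (c - β * w) = ENNReal.ofReal β⁻¹ * ∫⁻ v, f v := by
  have h := lintegral_map_equiv (μ := volume) (fun t => f (c - t))
    (Homeomorph.mulLeft₀ β hβ.ne').toMeasurableEquiv
  have h2 : Measure.map (Homeomorph.mulLeft₀ β hβ.ne').toMeasurableEquiv (volume : Measure ℝ) =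
      ENNReal.ofReal |β⁻¹| • volume := Real.map_volume_mul_left hβ.ne'
  rw [h2, lintegral_smul_measure, lintegral_sub_left_eq_self f c, abs_of_pos (inv_pos.2 hβ)] at h
  exact h.symm

/-- The standard Gaussian density is at most `1 / √(2π)`. -/
theorem small_gauss_le (f : ℝ → ENNReal) :
    ∫⁻ x, f x ∂gaussianReal 0 1 ≤ ENNReal.ofReal (√(2 * π))⁻¹ * ∫⁻ x, f x := by
  have h : gaussianReal 0 1 ≤ ENNReal.ofReal (√(2 * π))⁻¹ • (volume : Measure ℝ) := by
    rw [gaussianReal_of_var_ne_zero 0 one_ne_zero, ← withDensity_const]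
    refine withDensity_mono (Filter.Eventually.of_forall fun x => ?_)
    refine ENNReal.ofReal_le_ofReal ?_
    simp only [gaussianPDFReal, NNReal.coe_one, mul_one, sub_zero]
    refine mul_le_of_le_one_right (by positivity) ?_
    rw [Real.exp_le_one_iff]
    have := sq_nonneg x
    linarith
  refine (lintegral_mono' h le_rfl).trans (le_of_eq ?_)
  rw [lintegral_smul_measure, smul_eq_mul]

/-- The third moment of the positive part of a standard Gaussian. -/
theorem small_cube (C : ℝ) (hC : 0 ≤ C) :
    ∫⁻ x, ENNReal.ofReal (C * x ^ 3) ∂gaussianReal 0 1 ≤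
      ENNReal.ofReal (C * 2 * (√(2 * π))⁻¹) := by
  set D : ℝ := C * (√(2 * π))⁻¹ with hD
  have hD0 : 0 ≤ D := by positivity
  have hder : ∀ x ∈ Ici (0 : ℝ), HasDerivAt (fun x => D * (-(x ^ 2 + 2) * rexp (-(x ^ 2 / 2))))
      (D * (x ^ 3 * rexp (-(x ^ 2 / 2)))) x := by
    intro x _
    have h1 := (((hasDerivAt_id x).pow 2).add_const 2).neg
    have h2 := ((((hasDerivAt_id x).pow 2).div_const 2).neg).exp
    have := (h1.mul h2).const_mul D
    refine HasDerivAt.congr_deriv this ?_
    congr 1
    simp; ring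
  have hpos : ∀ x ∈ Ioi (0 : ℝ), 0 ≤ D * (x ^ 3 * rexp (-(x ^ 2 / 2))) := by
    intro x hx
    have : 0 < x := hx
    positivity
  have hlim : Filter.Tendsto (fun x : ℝ => D * (-(x ^ 2 + 2) * rexp (-(x ^ 2 / 2)))) Filter.atTop
      (nhds 0) := by
    have ht : Filter.Tendsto (fun x : ℝ => x ^ 2 / 2) Filter.atTop Filter.atTop :=
      (Filter.tendsto_pow_atTop two_ne_zero).atTop_div_const two_pos
    have a1 := (Real.tendsto_pow_mul_exp_neg_atTop_nhds_zero 1).comp ht
    have a0 := (Real.tendsto_pow_mul_exp_neg_atTop_nhds_zero 0).comp ht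
    have := ((a1.add a0).const_mul (-2)).const_mul D
    simp only [add_zero, mul_zero] at this
    refine this.congr fun x => ?_
    simp only [Function.comp_apply]; ring
  rw [gaussianReal_of_var_ne_zero 0 one_ne_zero,
    lintegral_withDensity_eq_lintegral_mul _ (measurable_gaussianPDF 0 1) (by fun_prop)]
  calc ∫⁻ x, (gaussianPDF 0 1 * fun x => ENNReal.ofReal (C * x ^ 3)) x
      ≤ ∫⁻ x, (Ioi (0 : ℝ)).indicator
          (fun x => ENNReal.ofReal (D * (x ^ 3 * rexp (-(x ^ 2 / 2))))) x := by
        refine lintegral_mono fun x => ?_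
        simp only [Pi.mul_apply]
        by_cases hx : x ≤ 0
        · have : C * x ^ 3 ≤ 0 := mul_nonpos_of_nonneg_of_nonpos hC (Odd.pow_nonpos (by decide) hx)
          rw [ENNReal.ofReal_of_nonpos this, mul_zero]
          exact zero_le
        · rw [indicator_of_mem (show x ∈ Ioi (0 : ℝ) from not_le.1 hx), gaussianPDF,
            ← ENNReal.ofReal_mul (gaussianPDFReal_nonneg 0 1 x)]
          refine le_of_eq ?_
          congr 1
          simp only [gaussianPDFReal, NNReal.coe_one, mul_one, sub_zero, hD, neg_div]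
          ring
    _ = ENNReal.ofReal (C * 2 * (√(2 * π))⁻¹) := by
        rw [lintegral_indicator measurableSet_Ioi,
          ← ofReal_integral_eq_lintegral_ofReal (integrableOn_Ioi_deriv_of_nonneg' hder hpos hlim)
            ((ae_restrict_iff' measurableSet_Ioi).2 (Filter.Eventually.of_forall hpos)),
          integral_Ioi_of_hasDerivAt_of_nonneg' hder hpos hlim]
        congr 1
        simp [hD]; ring

theorem core_small (a α β k₁ k₂ k₃ : ℝ) (ha : 0 < a) (hβ : 0 < β) (hk : 0 ≤ k₁ + k₂ + k₃) :
    ∫⁻ x, ∫⁻ y, ∫⁻ w, ENNReal.ofReal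
        (min (k₁ * x - a * y) (min (k₂ * x - α * y - β * w) (k₃ * x + (a + α) * y + β * w)))
      ∂gaussianReal 0 1 ∂gaussianReal 0 1 ∂gaussianReal 0 1
      ≤ ENNReal.ofReal ((k₁ + k₂ + k₃) ^ 3 / (18 * π * a * β * √(2 * π))) := by
  set k := k₁ + k₂ + k₃ with hkdef
  have hs : 0 < √(2 * π) := Real.sqrt_pos.2 (by positivity)
  set c : ℝ := (√(2 * π))⁻¹ with hc
  have hc0 : 0 < c := inv_pos.2 hs
  have hw : ∀ x y : ℝ, ∫⁻ w, ENNReal.ofReal
      (min (k₁ * x - a * y) (min (k₂ * x - α * y - β * w) (k₃ * x + (a + α) * y + β * w)))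
        ∂gaussianReal 0 1 ≤ ENNReal.ofReal c * (ENNReal.ofReal β⁻¹ *
          ∫⁻ v, ENNReal.ofReal (min (k₁ * x - a * y) (min v (k * x - (k₁ * x - a * y) - v)))) := by
    intro x y
    refine (small_gauss_le _).trans (le_of_eq ?_)
    rw [← small_subst (fun v => ENNReal.ofReal
      (min (k₁ * x - a * y) (min v (k * x - (k₁ * x - a * y) - v)))) (k₂ * x - α * y) β hβ]
    congr 1
    refine lintegral_congr fun w => ?_
    congr 3
    rw [hkdef]; ring
  have hy : ∀ x : ℝ, ∫⁻ y, ∫⁻ w, ENNReal.ofReal
      (min (k₁ * x - a * y) (min (k₂ * x - α * y - β * w) (k₃ * x + (a + α) * y + β * w)))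
        ∂gaussianReal 0 1 ∂gaussianReal 0 1 ≤
        ENNReal.ofReal ((c * c * β⁻¹ * a⁻¹ * k ^ 3 / 18) * x ^ 3) := by
    intro x
    refine (lintegral_mono fun y => hw x y).trans ?_
    rw [lintegral_const_mul' _ _ ENNReal.ofReal_ne_top,
      lintegral_const_mul' _ _ ENNReal.ofReal_ne_top]
    have h1 := small_gauss_le fun y =>
      ∫⁻ v, ENNReal.ofReal (min (k₁ * x - a * y) (min v (k * x - (k₁ * x - a * y) - v)))
    rw [small_subst (fun u => ∫⁻ v, ENNReal.ofReal (min u (min v (k * x - u - v)))) (k₁ * x) a ha]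
      at h1
    have h2 := small_pyramid (k * x)
    calc _ ≤ ENNReal.ofReal c * (ENNReal.ofReal β⁻¹ * (ENNReal.ofReal c * (ENNReal.ofReal a⁻¹ *
          ENNReal.ofReal ((k * x) ^ 3 / 18)))) := by
          gcongr
          exact h1.trans (by gcongr)
      _ = _ := by
          rw [← ENNReal.ofReal_mul (by positivity), ← ENNReal.ofReal_mul (by positivity),
            ← ENNReal.ofReal_mul (by positivity), ← ENNReal.ofReal_mul (by positivity)]
          congr 1; ring
  refine (lintegral_mono hy).trans ((small_cube _ (by positivity)).trans (le_of_eq ?_))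
  congr 1
  have hcc : c * c = (2 * π)⁻¹ := by
    rw [hc, ← mul_inv, Real.mul_self_sqrt (by positivity)]
  rw [hcc]
  have := Real.pi_pos
  field_simp

end Crest.Agent.R215
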