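import Mathlib

/-! Orthonormal frames push the standard Gaussian to product Gaussians. -/

open MeasureTheory ProbabilityTheory Real
open scoped RealInnerProductSpace

namespace Crest.Agent.R215

variable {E : Type*} [NormedAddCommGroup E] [InnerProductSpace ℝ E] [FiniteDimensional ℝ E]
  [MeasurableSpace E] [BorelSpace E]

theorem map_stdGaussian_of_coisometry {F : Type*} [NormedAddCommGroup F] [InnerProductSpace ℝ F]
    [FiniteDimensional ℝ F] [MeasurableSpace F] [BorelSpace F] (A : E → F) (hA : Measurable A)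
    (h : ∀ t : F, ∃ s : E, ‖s‖ = ‖t‖ ∧ ∀ g, ⟪A g, t⟫ = ⟪g, s⟫) :
    (stdGaussian E).map A = stdGaussian F := by
  apply Measure.ext_of_charFun
  ext t
  obtain ⟨s, hs, hg⟩ := h t
  rw [charFun_stdGaussian, ← hs, ← charFun_stdGaussian, charFun_apply, charFun_apply,
    integral_map hA.aemeasurable (Measurable.aestronglyMeasurable (by fun_prop))]
  simp_rw [hg]

theorem measurePreserving_frame {n : ℕ} {e : Fin n → E} (he : Orthonormal ℝ e) :
    MeasurePreserving (fun g : E => fun i => ⟪e i, g⟫) (stdGaussian E)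
      (Measure.pi fun _ : Fin n => gaussianReal 0 1) := by
  have hm : Measurable (fun g : E => fun i => ⟪e i, g⟫) := by fun_prop
  have h1 : (stdGaussian E).map
      (fun g : E => (WithLp.toLp 2 (fun i => ⟪e i, g⟫) : EuclideanSpace ℝ (Fin n))) =
      stdGaussian (EuclideanSpace ℝ (Fin n)) := by
    apply map_stdGaussian_of_coisometry _ (by fun_prop)
    intro t
    refine ⟨∑ i, t i • e i, ?_, ?_⟩
    · have h2 : ‖∑ i, t i • e i‖ ^ 2 = ‖t‖ ^ 2 := by
        rw [← real_inner_self_eq_norm_sq, he.inner_sum, EuclideanSpace.real_norm_sq_eq]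
        simp [sq]
      exact (sq_eq_sq₀ (norm_nonneg _) (norm_nonneg _)).1 h2
    · intro g
      simp [PiLp.inner_apply, inner_sum, real_inner_smul_right, real_inner_comm, mul_comm]
  refine ⟨hm, ?_⟩
  have h3 : (fun g : E => fun i => ⟪e i, g⟫) = (WithLp.ofLp : EuclideanSpace ℝ (Fin n) → _) ∘
      (fun g : E => (WithLp.toLp 2 (fun i => ⟪e i, g⟫) : EuclideanSpace ℝ (Fin n))) := rfl
  rw [h3, ← Measure.map_map (by fun_prop) (by fun_prop), h1, ← map_pi_eq_stdGaussian,
    Measure.map_map (by fun_prop) (by fun_prop)]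
  simp [Function.comp_def]

theorem mp_pi3 : MeasurePreserving (fun x : Fin 3 → ℝ => (x 0, x 1, x 2))
    (Measure.pi fun _ => gaussianReal 0 1)
    ((gaussianReal 0 1).prod ((gaussianReal 0 1).prod (gaussianReal 0 1))) := by
  have := ((MeasurePreserving.id (gaussianReal 0 1)).prod
    (measurePreserving_finTwoArrow (gaussianReal 0 1))).comp
    (measurePreserving_piFinSuccAbove (fun _ : Fin 3 => gaussianReal 0 1) 0)
  exact this

theorem mp_pi4 : MeasurePreserving (fun x : Fin 4 → ℝ => (x 0, x 1, x 2, x 3))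
    (Measure.pi fun _ => gaussianReal 0 1)
    ((gaussianReal 0 1).prod ((gaussianReal 0 1).prod
      ((gaussianReal 0 1).prod (gaussianReal 0 1)))) := by
  have := ((MeasurePreserving.id (gaussianReal 0 1)).prod mp_pi3).comp
    (measurePreserving_piFinSuccAbove (fun _ : Fin 4 => gaussianReal 0 1) 0)
  exact this

theorem lintegral_frame3 {e : Fin 3 → E} (he : Orthonormal ℝ e)
    (f : ℝ × ℝ × ℝ → ENNReal) (hf : Measurable f) :
    ∫⁻ g, f (⟪e 0, g⟫, ⟪e 1, g⟫, ⟪e 2, g⟫) ∂stdGaussian E =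
      ∫⁻ a, ∫⁻ b, ∫⁻ c, f (a, b, c) ∂gaussianReal 0 1 ∂gaussianReal 0 1 ∂gaussianReal 0 1 := by
  have h := (mp_pi3.comp (measurePreserving_frame he)).lintegral_comp hf
  simp only [Function.comp_def] at h
  rw [h, lintegral_prod _ hf.aemeasurable]
  refine lintegral_congr fun a => ?_
  rw [lintegral_prod _ (by fun_prop)]

theorem lintegral_frame4 {e : Fin 4 → E} (he : Orthonormal ℝ e)
    (f : ℝ × ℝ × ℝ × ℝ → ENNReal) (hf : Measurable f) :
    ∫⁻ g, f (⟪e 0, g⟫, ⟪e 1, g⟫, ⟪e 2, g⟫, ⟪e 3, g⟫) ∂stdGaussian E =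
      ∫⁻ x, ∫⁻ a, ∫⁻ b, ∫⁻ c, f (x, a, b, c)
        ∂gaussianReal 0 1 ∂gaussianReal 0 1 ∂gaussianReal 0 1 ∂gaussianReal 0 1 := by
  have h := (mp_pi4.comp (measurePreserving_frame he)).lintegral_comp hf
  simp only [Function.comp_def] at h
  rw [h, lintegral_prod _ hf.aemeasurable]
  refine lintegral_congr fun x => ?_
  rw [lintegral_prod _ (by fun_prop)]
  refine lintegral_congr fun a => ?_
  rw [lintegral_prod _ (by fun_prop)]

theorem measurePreserving_inner_unit {u : E} (hu : ‖u‖ = 1) :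
    MeasurePreserving (fun g : E => ⟪u, g⟫) (stdGaussian E) (gaussianReal 0 1) := by
  have he : Orthonormal ℝ (fun _ : Fin 1 => u) := by
    constructor
    · intro _; exact hu
    · intro i j hij; exact absurd (Subsingleton.elim i j) hij
  exact (measurePreserving_funUnique (gaussianReal 0 1) (Fin 1)).comp
    (measurePreserving_frame he)

theorem measurePreserving_isometry (H : E ≃ₗᵢ[ℝ] E) :
    MeasurePreserving H (stdGaussian E) (stdGaussian E) :=
  ⟨H.continuous.measurable, stdGaussian_map H⟩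

theorem measurePreserving_neg_gauss :
    MeasurePreserving (fun g : E => -g) (stdGaussian E) (stdGaussian E) :=
  measurePreserving_isometry (LinearIsometryEquiv.neg ℝ)

/-- functions of linear growth are integrable -/
theorem integrable_of_le_norm {f : E → ℝ} (hf : Continuous f) (C : ℝ)
    (h : ∀ g, |f g| ≤ C * ‖g‖) : Integrable f (stdGaussian E) := by
  have h1 : Integrable (fun g : E => C * ‖g‖) (stdGaussian E) :=
    (IsGaussian.integrable_fun_id (μ := stdGaussian E)).norm.const_mul C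
  exact h1.mono' hf.aestronglyMeasurable (Filter.Eventually.of_forall h)

theorem integrable_inner_gauss (v : E) : Integrable (fun g : E => ⟪v, g⟫) (stdGaussian E) :=
  integrable_of_le_norm (by fun_prop) ‖v‖ fun g => abs_real_inner_le_norm v g

theorem integral_inner_gauss (v : E) : ∫ g, ⟪v, g⟫ ∂stdGaussian E = 0 := by
  rw [integral_inner IsGaussian.integrable_fun_id, integral_id_stdGaussian, inner_zero_right]

/-- from a lower integral bound to a Bochner integral bound for a positive part -/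
theorem integral_posPart_le {α : Type*} [MeasurableSpace α] {μ : Measure α} {f : α → ℝ}
    (hf : Measurable f) {B : ℝ} (hB : 0 ≤ B)
    (h : ∫⁻ g, ENNReal.ofReal (f g) ∂μ ≤ ENNReal.ofReal B) :
    ∫ g, max (f g) 0 ∂μ ≤ B := by
  rw [integral_eq_lintegral_of_nonneg_ae (f := fun g => max (f g) 0)
    (Filter.Eventually.of_forall fun g => le_max_right _ _)
    (hf.max measurable_const).aestronglyMeasurable]
  have h1 : ∀ g, ENNReal.ofReal (max (f g) 0) = ENNReal.ofReal (f g) := by
    intro g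
    rcases le_total (f g) 0 with h | h
    · rw [max_eq_right h, ENNReal.ofReal_of_nonpos h, ENNReal.ofReal_zero]
    · rw [max_eq_left h]
  simp_rw [h1]
  exact ENNReal.toReal_le_of_le_ofReal hB h

theorem lintegral_posPart_gauss :
    ∫⁻ x, ENNReal.ofReal x ∂gaussianReal 0 1 ≤ ENNReal.ofReal (1 / √(2 * π)) := by
  rw [gaussianReal_of_var_ne_zero _ one_ne_zero,
    lintegral_withDensity_eq_lintegral_mul _ (measurable_gaussianPDF _ _) (by fun_prop)]
  have hpos : 0 < √(2 * π) := Real.sqrt_pos.mpr (by positivity)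
  have hderiv : ∀ x ∈ Set.Ici (0 : ℝ), HasDerivAt (fun x : ℝ => -(exp (-x ^ 2 / 2)) / √(2 * π))
      (x * exp (-x ^ 2 / 2) / √(2 * π)) x := by
    intro x _
    have h1 : HasDerivAt (fun x : ℝ => -x ^ 2 / 2) (-x) x := by
      have := ((hasDerivAt_pow 2 x).fun_neg).div_const 2
      refine this.congr_deriv ?_
      simp; ring
    have := (h1.exp.fun_neg).div_const (√(2 * π))
    refine this.congr_deriv ?_
    ring
  have hnn : ∀ x ∈ Set.Ioi (0 : ℝ), 0 ≤ x * exp (-x ^ 2 / 2) / √(2 * π) := by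
    intro x hx
    have : 0 < x := hx
    positivity
  have hlim : Filter.Tendsto (fun x : ℝ => -(exp (-x ^ 2 / 2)) / √(2 * π)) Filter.atTop
      (nhds (-0 / √(2 * π))) := by
    refine (Filter.Tendsto.neg ?_).div_const _
    apply Real.tendsto_exp_atBot.comp
    apply Filter.Tendsto.atBot_div_const (by norm_num)
    exact Filter.tendsto_neg_atTop_atBot.comp (Filter.tendsto_pow_atTop (by norm_num))
  have hint := integrableOn_Ioi_deriv_of_nonneg' hderiv hnn hlim
  have hval := integral_Ioi_of_hasDerivAt_of_nonneg' hderiv hnn hlim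
  have hle : ∫⁻ x, (gaussianPDF 0 1 * fun x => ENNReal.ofReal x) x ≤
      ∫⁻ x in Set.Ioi (0 : ℝ), ENNReal.ofReal (x * exp (-x ^ 2 / 2) / √(2 * π)) := by
    rw [← lintegral_indicator measurableSet_Ioi]
    refine lintegral_mono fun x => ?_
    by_cases hx : x ∈ Set.Ioi (0 : ℝ)
    · rw [Set.indicator_of_mem hx]
      simp only [Pi.mul_apply, gaussianPDF, gaussianPDFReal]
      rw [← ENNReal.ofReal_mul (by positivity)]
      apply le_of_eq
      congr 1
      simp
      ring
    · have : x ≤ 0 := not_lt.mp hx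
      simp [ENNReal.ofReal_of_nonpos this]
  refine hle.trans ?_
  rw [← ofReal_integral_eq_lintegral_ofReal hint
    ((ae_restrict_iff' measurableSet_Ioi).2 (Filter.Eventually.of_forall hnn)), hval]
  simp [neg_div]

theorem integral_posPart_inner (v : E) :
    √(2 * π) * ∫ g, max ⟪v, g⟫ 0 ∂stdGaussian E ≤ ‖v‖ := by
  have hpos : 0 < √(2 * π) := Real.sqrt_pos.mpr (by positivity)
  rcases eq_or_ne v 0 with rfl | hv
  · simp
  have hn : 0 < ‖v‖ := norm_pos_iff.mpr hv
  set u : E := ‖v‖⁻¹ • v with hu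
  have hu1 : ‖u‖ = 1 := by rw [hu, norm_smul, norm_inv, norm_norm, inv_mul_cancel₀ hn.ne']
  have hvu : ∀ g, ⟪v, g⟫ = ‖v‖ * ⟪u, g⟫ := by
    intro g; rw [hu, real_inner_smul_left]; field_simp
  have h1 : ∫ g, max ⟪u, g⟫ 0 ∂stdGaussian E ≤ 1 / √(2 * π) := by
    apply integral_posPart_le (by fun_prop) (by positivity)
    rw [(measurePreserving_inner_unit hu1).lintegral_comp (f := fun x => ENNReal.ofReal x)
      (by fun_prop)]
    exact lintegral_posPart_gauss
  have h2 : ∫ g, max ⟪v, g⟫ 0 ∂stdGaussian E = ‖v‖ * ∫ g, max ⟪u, g⟫ 0 ∂stdGaussian E := by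
    rw [← integral_const_mul]
    refine integral_congr_ae (Filter.Eventually.of_forall fun g => ?_)
    simp only
    rw [hvu, mul_max_of_nonneg _ _ hn.le, mul_zero]
  rw [h2]
  calc √(2 * π) * (‖v‖ * ∫ g, max ⟪u, g⟫ 0 ∂stdGaussian E)
      ≤ √(2 * π) * (‖v‖ * (1 / √(2 * π))) := by gcongr
    _ = ‖v‖ := by field_simp

end Crest.Agent.R215
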