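import Crest.Agent.R215.SchemeA

/-! The propeller inequality: assembly. -/

open MeasureTheory ProbabilityTheory Real Module
open scoped RealInnerProductSpace

namespace Crest.Agent.R215

variable {E : Type*} [NormedAddCommGroup E] [InnerProductSpace ℝ E] [FiniteDimensional ℝ E]
  [MeasurableSpace E] [BorelSpace E] {ι : Type*} [Fintype ι]

theorem Adm.sorted [DecidableEq ι] {z : ι → E} (hz : Adm z) (hE : 4 ≤ finrank ℝ E)
    (hob : ∀ i j, i ≠ j → ⟪z i, z j⟫ ≤ 0) {i1 i2 i3 i4 : ι} (h12 : i1 ≠ i2) (h13 : i1 ≠ i3)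
    (h14 : i1 ≠ i4) (h23 : i2 ≠ i3) (h24 : i2 ≠ i4) (h34 : i3 ≠ i4)
    (o12 : ‖z i2‖ ^ 2 ≤ ‖z i1‖ ^ 2) (o23 : ‖z i3‖ ^ 2 ≤ ‖z i2‖ ^ 2)
    (o34 : ‖z i4‖ ^ 2 ≤ ‖z i3‖ ^ 2)
    (o4 : ∀ j ∈ ({i1, i2, i3, i4} : Finset ι)ᶜ, ‖z j‖ ^ 2 ≤ ‖z i4‖ ^ 2)
    (hT : ∑ i, ‖z i‖ ^ 2 ≤ 22501 / 10000) : ∑ i, ‖z i‖ ^ 2 ≤ 9 / 4 := by
  set L : Finset ι := ({i1, i2, i3, i4} : Finset ι)ᶜ with hL
  have m1 : i1 ∉ ({i2, i3, i4} : Finset ι) := by simp [h12, h13, h14]
  have m2 : i2 ∉ ({i3, i4} : Finset ι) := by simp [h23, h24]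
  have m1' : i1 ∉ ({i2, i3} : Finset ι) := by simp [h12, h13]
  have hsplit : ∀ f : ι → E, ∑ i, f i = f i1 + f i2 + f i3 + f i4 + ∑ j ∈ L, f j := by
    intro f
    rw [← Finset.sum_add_sum_compl {i1, i2, i3, i4}, Finset.sum_insert m1, Finset.sum_insert m2,
      Finset.sum_pair h34]
    abel
  have hsplitR : ∀ f : ι → ℝ, ∑ i, f i = f i1 + f i2 + f i3 + f i4 + ∑ j ∈ L, f j := by
    intro f
    rw [← Finset.sum_add_sum_compl {i1, i2, i3, i4}, Finset.sum_insert m1, Finset.sum_insert m2,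
      Finset.sum_pair h34]
    ring
  have hsum4 : ∀ f : ι → ℝ, ∑ i ∈ ({i1, i2, i3, i4} : Finset ι), f i =
      f i1 + f i2 + f i3 + f i4 := by
    intro f
    rw [Finset.sum_insert m1, Finset.sum_insert m2, Finset.sum_pair h34]
    ring
  have hsum3 : ∀ f : ι → ℝ, ∑ i ∈ ({i1, i2, i3} : Finset ι), f i = f i1 + f i2 + f i3 := by
    intro f
    rw [Finset.sum_insert m1', Finset.sum_pair h23]
    ring
  have hc3 : ({i1, i2, i3} : Finset ι)ᶜ = insert i4 L := by
    ext j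
    simp only [hL, Finset.mem_compl, Finset.mem_insert, Finset.mem_singleton]
    constructor
    · intro hj
      by_cases h : j = i4
      · exact Or.inl h
      · right; tauto
    · rintro (rfl | hj)
      · simp [h14.symm, h24.symm, h34.symm]
      · tauto
  have m4 : i4 ∉ L := by simp [hL]
  have hsc3 : ∑ j ∈ ({i1, i2, i3} : Finset ι)ᶜ, ‖z j‖ ^ 2 = ‖z i4‖ ^ 2 + ∑ j ∈ L, ‖z j‖ ^ 2 := by
    rw [hc3, Finset.sum_insert m4]
  have hb3 : ∀ j ∈ ({i1, i2, i3} : Finset ι)ᶜ, ‖z j‖ ^ 2 ≤ ‖z i4‖ ^ 2 := by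
    intro j hj
    rw [hc3, Finset.mem_insert] at hj
    rcases hj with rfl | hj
    · exact le_rfl
    · exact o4 j hj
  obtain ⟨R, hR⟩ : ∃ R, R = ∑ j ∈ L, z j := ⟨_, rfl⟩
  have h0 : z i1 + z i2 + z i3 + z i4 + R = 0 := by rw [hR, ← hsplit z, hz.sum_eq_zero]
  have hRS : ‖R‖ ^ 2 ≤ ∑ j ∈ L, ‖z j‖ ^ 2 := hR ▸ norm_sum_sq_le hob L
  have hR1 : ‖R‖ ^ 2 ≤ 1 := pow_le_one₀ (norm_nonneg _) (hR ▸ hz.norm_sum_le_one L)
  have hS0 : 0 ≤ ∑ j ∈ L, ‖z j‖ ^ 2 := Finset.sum_nonneg fun _ _ => sq_nonneg _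
  have hker : ∀ (P : Submodule ℝ E) (x : E), x ∈ P → Pᗮ.starProjection x = 0 := by
    intro P x hx
    rw [Submodule.starProjection_orthogonal_val, Submodule.starProjection_eq_self_iff.2 hx,
      sub_self]
  have heq : ∀ (P : Submodule ℝ E) (x y : E), x - y ∈ P →
      Pᗮ.starProjection y = Pᗮ.starProjection x := by
    intro P x y hxy
    have := hker P _ hxy
    rw [map_sub, sub_eq_zero] at this
    exact this.symm
  have hpr : ∀ (P : Submodule ℝ E), ‖Pᗮ.starProjection R‖ ^ 2 ≤ ‖R‖ ^ 2 := fun P =>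
    pow_le_pow_left₀ (norm_nonneg _) (Pᗮ.norm_starProjection_apply_le R) 2
  rw [hsplitR] at hT ⊢
  refine numeric_main (Tl := fun x => ∀ j ∈ L, ‖z j‖ ^ 2 ≤ x) o12 o23 o34
    (pow_le_one₀ (norm_nonneg _) (hz.norm_le_one _)) (sq_nonneg _) hS0 hT
    (fun x hx j hj => (o4 j hj).trans hx) ?_ ?_ ?_ ?_ ?_
  · intro x hx
    push Not at hx
    obtain ⟨j, hj, hx⟩ := hx
    refine ⟨hx.le.trans (o4 j hj), hx.le.trans ?_⟩
    exact Finset.single_le_sum (f := fun j => ‖z j‖ ^ 2) (fun _ _ => sq_nonneg _) hj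
  · obtain ⟨P, hP, p2, p3, p4⟩ := exists_three_space (by omega : 3 ≤ finrank ℝ E)
      (z i1 - z i2) (z i1 - z i3) (z i1 - z i4)
    obtain ⟨ν, hν, hcap⟩ := hz.cells hE P hP {i1, i2, i3, i4}
    have e2 := heq P _ _ p2
    have e3 := heq P _ _ p3
    have e4 := heq P _ _ p4
    have e0 := congrArg Pᗮ.starProjection h0
    rw [map_add, map_add, map_add, map_add, map_zero, e2, e3, e4] at e0
    have e5 : Pᗮ.starProjection R = (-4 : ℝ) • Pᗮ.starProjection (z i1) := by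
      rw [← sub_eq_zero, ← e0]; module
    have e6 := hpr P
    rw [e5, norm_smul, mul_pow, Real.norm_eq_abs, sq_abs] at e6
    have c1 := hν i1
    have c2 := hν i2
    have c3 := hν i3
    have c4 := hν i4
    rw [e2] at c2
    rw [e3] at c3
    rw [e4] at c4
    refine ⟨_, _, ν i1, ν i2, ν i3, ν i4, sq_nonneg _, by linarith, by linarith, sq_nonneg _,
      by linarith, by linarith, c1, c2, c3, c4, fun l N x hx hT => ?_⟩
    have := hcap l N x hx hT
    rw [hsum4] at this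
    linarith
  · obtain ⟨P, hP, p2, p3, p4⟩ := exists_three_space (by omega : 3 ≤ finrank ℝ E)
      (z i1 - z i2) (z i1 - z i3) (z i4)
    obtain ⟨ν, hν, hcap⟩ := hz.cells hE P hP {i1, i2, i3, i4}
    have e2 := heq P _ _ p2
    have e3 := heq P _ _ p3
    have e4 := hker P _ p4
    have e0 := congrArg Pᗮ.starProjection h0
    rw [map_add, map_add, map_add, map_add, map_zero, e2, e3, e4] at e0
    have e5 : Pᗮ.starProjection R = (-3 : ℝ) • Pᗮ.starProjection (z i1) := by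
      rw [← sub_eq_zero, ← e0]; module
    have e6 := hpr P
    rw [e5, norm_smul, mul_pow, Real.norm_eq_abs, sq_abs] at e6
    have c1 := hν i1
    have c2 := hν i2
    have c3 := hν i3
    have c4 := hν i4
    rw [e2] at c2
    rw [e3] at c3
    rw [e4, norm_zero, zero_pow two_ne_zero] at c4
    refine ⟨_, 0, ν i1, ν i2, ν i3, ν i4, sq_nonneg _, by linarith, by linarith, le_rfl,
      by linarith, le_rfl, c1, c2, c3, c4, fun l N x hx hT => ?_⟩
    have := hcap l N x hx hT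
    rw [hsum4] at this
    linarith
  · obtain ⟨P, hP, p1, p2, p3⟩ := exists_three_space (by omega : 3 ≤ finrank ℝ E)
      (z i1) (z i2) (z i3)
    obtain ⟨ν, hν, hcap⟩ := hz.cells hE P hP {i1, i2, i3}
    have c1 := hν i1
    have c2 := hν i2
    have c3 := hν i3
    rw [hker P _ p1, norm_zero, zero_pow two_ne_zero] at c1
    rw [hker P _ p2, norm_zero, zero_pow two_ne_zero] at c2
    rw [hker P _ p3, norm_zero, zero_pow two_ne_zero] at c3
    refine ⟨ν i1, ν i2, ν i3, c1, c2, c3, fun l N x hx hT => ?_⟩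
    have := hcap l N x (fun j hj => (hb3 j hj).trans hx) hT
    rw [hsum3, hsc3] at this
    linarith
  · intro a1 a2 a3
    have := hz.schemeA hob h12 h13 h23 (s := ‖z i4‖) (norm_nonneg _) a1
      (fun j hj => (pow_le_pow_iff_left₀ (norm_nonneg _) (norm_nonneg _) two_ne_zero).1 (hb3 j hj))
      (by rw [hsc3]; exact a2) (by linarith) (by linarith) a3
    rw [hsc3] at this
    linarith

theorem Adm.obtuse_small {z : ι → E} (hz : Adm z) (hE : 4 ≤ finrank ℝ E)
    (hι : 4 ≤ Fintype.card ι) (hob : ∀ i j, i ≠ j → ⟪z i, z j⟫ ≤ 0)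
    (hT : ∑ i, ‖z i‖ ^ 2 ≤ 22501 / 10000) : ∑ i, ‖z i‖ ^ 2 ≤ 9 / 4 := by
  classical
  have pick : ∀ s : Finset ι, s.card ≤ 3 → ∃ i, i ∉ s ∧ ∀ j, j ∉ s → ‖z j‖ ^ 2 ≤ ‖z i‖ ^ 2 := by
    intro s hs
    have hne : sᶜ.Nonempty := by
      rw [← Finset.card_pos, Finset.card_compl]; omega
    obtain ⟨i, hi, hmax⟩ := Finset.exists_max_image sᶜ (fun j => ‖z j‖ ^ 2) hne
    exact ⟨i, Finset.mem_compl.1 hi, fun j hj => hmax j (Finset.mem_compl.2 hj)⟩
  obtain ⟨i1, -, k1⟩ := pick ∅ (by simp)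
  obtain ⟨i2, n2, k2⟩ := pick {i1} (by simp)
  obtain ⟨i3, n3, k3⟩ := pick {i1, i2} (Finset.card_le_two.trans (by norm_num))
  obtain ⟨i4, n4, k4⟩ := pick {i1, i2, i3} Finset.card_le_three
  simp only [Finset.mem_insert, Finset.mem_singleton, not_or] at n2 n3 n4
  refine hz.sorted hE hob (Ne.symm n2) (Ne.symm n3.1) (Ne.symm n4.1) (Ne.symm n3.2)
    (Ne.symm n4.2.1) (Ne.symm n4.2.2) (k1 _ (by simp)) (k2 _ (by simp [n3.1]))
    (k3 _ (by simp [n4.1, n4.2.1])) (fun j hj => k4 j ?_) hT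
  simp only [Finset.mem_compl, Finset.mem_insert, Finset.mem_singleton, not_or] at hj ⊢
  exact ⟨hj.1, hj.2.1, hj.2.2.1⟩

theorem Adm.obtuse {z : ι → E} (hz : Adm z) (hE : 4 ≤ finrank ℝ E)
    (hι : 4 ≤ Fintype.card ι) (hob : ∀ i j, i ≠ j → ⟪z i, z j⟫ ≤ 0) :
    ∑ i, ‖z i‖ ^ 2 ≤ 9 / 4 := by
  rcases le_total (∑ i, ‖z i‖ ^ 2) (22501 / 10000) with hT | hT
  · exact hz.obtuse_small hE hι hob hT
  exfalso
  have : Nonempty ι := Fintype.card_pos_iff.1 (by omega)
  set T := ∑ i, ‖z i‖ ^ 2 with hTd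
  have hT0 : 0 < T := by linarith
  set θ := √(22501 / 10000 / T) with hθ
  have hθ2 : θ ^ 2 = 22501 / 10000 / T := Real.sq_sqrt (by positivity)
  have hθ1 : θ ≤ 1 := Real.sqrt_le_one.2 ((div_le_one hT0).2 hT)
  have hs : ∑ i, ‖θ • z i‖ ^ 2 = 22501 / 10000 := by
    simp only [norm_smul, mul_pow, Real.norm_eq_abs, sq_abs]
    rw [← Finset.mul_sum, ← hTd, hθ2]
    field_simp
  have := (hz.smul (Real.sqrt_nonneg _) hθ1).obtuse_small hE hι (by
    intro i j hij
    rw [real_inner_smul_left, real_inner_smul_right, ← mul_assoc]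
    exact mul_nonpos_of_nonneg_of_nonpos (mul_self_nonneg _) (hob i j hij)) hs.le
  rw [hs] at this
  norm_num at this

theorem Adm.bound (hE : 4 ≤ finrank ℝ E) (hι : 4 ≤ Fintype.card ι) {z : ι → E} (hz : Adm z) :
    ∑ i, ‖z i‖ ^ 2 ≤ 9 / 4 := by
  classical
  obtain ⟨n, hn⟩ : ∃ n, (Finset.univ.filter fun i => z i ≠ 0).card = n := ⟨_, rfl⟩
  induction n using Nat.strong_induction_on generalizing z with
  | _ n ih =>
    by_cases hob : ∀ i j, i ≠ j → ⟪z i, z j⟫ ≤ 0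
    · exact hz.obtuse hE hι hob
    push Not at hob
    obtain ⟨i, j, hij, hp⟩ := hob
    have hi0 : z i ≠ 0 := by rintro h; rw [h, inner_zero_left] at hp; exact lt_irrefl _ hp
    have hj0 : z j ≠ 0 := by rintro h; rw [h, inner_zero_right] at hp; exact lt_irrefl _ hp
    have hm := hz.merge hij
    have hlt : (Finset.univ.filter fun l =>
        (if l = i then z i + z j else if l = j then 0 else z l) ≠ 0).card < n := by
      rw [← hn]
      apply Finset.card_lt_card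
      constructor
      · intro l hl
        simp only [Finset.mem_filter, Finset.mem_univ, true_and] at hl ⊢
        by_cases h1 : l = i
        · rw [h1]; exact hi0
        · by_cases h2 : l = j
          · rw [h2]; exact hj0
          · simpa [h1, h2] using hl
      · intro hsub
        have := hsub (Finset.mem_filter.2 ⟨Finset.mem_univ j, hj0⟩)
        simp [hij.symm] at this
    have h1 := ih _ hlt hm rfl
    refine le_trans ?_ h1
    rw [← Finset.add_sum_erase _ _ (Finset.mem_univ i),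
      ← Finset.add_sum_erase _ _ (Finset.mem_univ i),
      ← Finset.add_sum_erase _ _ (Finset.mem_erase.2 ⟨hij.symm, Finset.mem_univ j⟩),
      ← Finset.add_sum_erase _ _ (Finset.mem_erase.2 ⟨hij.symm, Finset.mem_univ j⟩)]
    have e : ∑ x ∈ (Finset.univ.erase i).erase j,
        ‖if x = i then z i + z j else if x = j then 0 else z x‖ ^ 2 =
        ∑ x ∈ (Finset.univ.erase i).erase j, ‖z x‖ ^ 2 := by
      refine Finset.sum_congr rfl fun x hx => ?_
      have h1 : x ≠ j := (Finset.mem_erase.1 hx).1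
      have h2 : x ≠ i := (Finset.mem_erase.1 (Finset.mem_erase.1 hx).2).1
      simp [h1, h2]
    rw [e, if_pos rfl, if_neg hij.symm, if_pos rfl, norm_add_sq_real, norm_zero]
    nlinarith

theorem propeller_of_dim (hE : 4 ≤ finrank ℝ E) (A : ι → Set E) (hA : ∀ i, MeasurableSet (A i))
    (hdisj : Pairwise fun i j => Disjoint (A i) (A j)) (hcov : ⋃ i, A i = Set.univ) :
    ∑ i, ‖∫ x in A i, x ∂stdGaussian E‖ ^ 2 ≤ 9 / (8 * π) := by
  let A' : ι ⊕ Fin 4 → Set E := Sum.elim A fun _ => ∅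
  have hz := adm_of_partition A' (by
      rintro (i | i)
      · exact hA i
      · exact MeasurableSet.empty) (by
      rintro (i | i) (j | j) hij
      · exact hdisj (fun h => hij (by rw [h]))
      · exact Set.disjoint_empty _
      · exact Set.empty_disjoint _
      · exact Set.empty_disjoint _) (by
      apply Set.eq_univ_of_univ_subset
      rw [← hcov]
      exact Set.iUnion_subset fun i => Set.subset_iUnion A' (Sum.inl i))
  have h := hz.bound hE (by simp)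
  rw [Fintype.sum_sum_type] at h
  have h2 : 0 ≤ ∑ i : Fin 4, ‖√(2 * π) • ∫ x in A' (Sum.inr i), x ∂stdGaussian E‖ ^ 2 :=
    Finset.sum_nonneg fun _ _ => sq_nonneg _
  have hπ := Real.pi_pos
  have h3 : ∑ i : ι, ‖√(2 * π) • ∫ x in A' (Sum.inl i), x ∂stdGaussian E‖ ^ 2 =
      2 * π * ∑ i, ‖∫ x in A i, x ∂stdGaussian E‖ ^ 2 := by
    rw [Finset.mul_sum]
    refine Finset.sum_congr rfl fun i _ => ?_
    rw [norm_smul, mul_pow, Real.norm_eq_abs, sq_abs, Real.sq_sqrt (by positivity)]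
    rfl
  rw [le_div_iff₀ (by positivity)]
  linarith

theorem propeller (A : ι → Set E) (hA : ∀ i, MeasurableSet (A i))
    (hdisj : Pairwise fun i j => Disjoint (A i) (A j)) (hcov : ⋃ i, A i = Set.univ) :
    ∑ i, ‖∫ x in A i, x ∂stdGaussian E‖ ^ 2 ≤ 9 / (8 * π) := by
  let E' := WithLp 2 (E × EuclideanSpace ℝ (Fin 4))
  let : MeasurableSpace E' := borel E'
  have : BorelSpace E' := ⟨rfl⟩
  let p : E' →L[ℝ] E := (ContinuousLinearMap.fst ℝ E (EuclideanSpace ℝ (Fin 4))).comp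
    (WithLp.prodContinuousLinearEquiv 2 ℝ E (EuclideanSpace ℝ (Fin 4))).toContinuousLinearMap
  have hpm : Measurable p := p.continuous.measurable
  have hp : ∀ x : E', p x = x.fst := fun x => rfl
  have hmap : (stdGaussian E').map p = stdGaussian E := by
    refine map_stdGaussian_of_coisometry p hpm fun t => ⟨WithLp.toLp 2 (t, 0), ?_, fun g => ?_⟩
    · exact WithLp.norm_toLp_fst 2 E (EuclideanSpace ℝ (Fin 4)) t
    · rw [hp, WithLp.prod_inner_apply]; simp
  have hE' : 4 ≤ finrank ℝ E' := by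
    rw [(WithLp.linearEquiv 2 ℝ (E × EuclideanSpace ℝ (Fin 4))).finrank_eq, finrank_prod]
    simp
  have h := propeller_of_dim hE' (fun i => p ⁻¹' A i) (fun i => hpm (hA i))
    (fun i j hij => (hdisj hij).preimage p) (by rw [← Set.preimage_iUnion, hcov]; rfl)
  refine le_trans (Finset.sum_le_sum fun i _ => ?_) h
  have hid : Integrable (fun x : E' => x) (stdGaussian E') := IsGaussian.integrable_fun_id
  have e1 : ∫ x in A i, x ∂stdGaussian E = p (∫ x in p ⁻¹' A i, x ∂stdGaussian E') := by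
    rw [← p.integral_comp_comm hid.integrableOn]
    conv_lhs => rw [← hmap]
    exact setIntegral_map (hA i) aestronglyMeasurable_id hpm.aemeasurable
  rw [e1, hp]
  exact pow_le_pow_left₀ (norm_nonneg _) (WithLp.norm_fst_le _ _) 2

end Crest.Agent.R215
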