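import Crest.Agent.R215.NumBase

/-! The eleven cap leaves (certificates generated by exact rational search). -/

set_option linter.unusedVariables false

namespace Crest.Agent.R215

theorem leaf1 {t1 t2 t3 t4 S : ℝ} {Tl : ℝ → Prop} (hcap : Cap4 t1 t2 t3 t4 S (1 / 16) (1 / 16) Tl)
    (hTl : Tl (7 / 20 : ℝ)) (hS : 0 ≤ S) (hS3 : (0 : ℝ) ≤ t4 + S)
    (hl1 : (27 / 100 : ℝ) ≤ t1) (hh1 : t1 ≤ (1 : ℝ))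
    (hl2 : (27 / 100 : ℝ) ≤ t2) (hh2 : t2 ≤ (1 : ℝ))
    (hl3 : (27 / 100 : ℝ) ≤ t3) (hh3 : t3 ≤ (1 : ℝ))
    (hl4 : (27 / 100 : ℝ) ≤ t4) (hh4 : t4 ≤ (1 : ℝ)) :
    t1 + t2 + t3 + t4 + S ≤ 9 / 4 := by
  obtain ⟨ε, ε4, ν1, ν2, ν3, ν4, he0, heS, he, hf0, hfS, hf, hc1, hc2, hc3, hc4, hsum⟩ := hcap
  have k := hsum (261 / 100 : ℝ) (46 / 25 : ℝ) (7 / 20 : ℝ) hTl (by norm_num [TailOK])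
  have hk : (15149 / 10000 : ℝ) ≤ (261 / 100 : ℝ) - (261 / 100 : ℝ) ^ 2 * ((46 / 25 : ℝ) - 1) / ((46 / 25 : ℝ) * ((46 / 25 : ℝ) + 1)) := by norm_num
  have hkS := mul_le_mul_of_nonneg_right hk hS
  have ok1 : CellOK (27 / 100 : ℝ) (1 : ℝ) (1 / 16 : ℝ) (1 : ℝ) (3 / 2 : ℝ) (13 / 25 : ℝ) (21 / 16 : ℝ) (0 : ℝ) (717 / 1000 : ℝ) (1 / 2 : ℝ) (717 / 1000 : ℝ) (53 / 125 : ℝ) (57 / 100 : ℝ) := by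
    norm_num [CellOK, QOK, qf, dqf]
  have c1 := cell_bound ok1 hc1 he0 he hl1 hh1
  have c2 := cell_bound ok1 hc2 he0 he hl2 hh2
  have c3 := cell_bound ok1 hc3 he0 he hl3 hh3
  have c4 := cell_bound ok1 hc4 hf0 hf hl4 hh4
  linarith

theorem leaf2 {t1 t2 t3 t4 S : ℝ} {Tl : ℝ → Prop} (hcap : Cap4 t1 t2 t3 t4 S (1 / 16) (1 / 16) Tl)
    (hTl : Tl (4501 / 10000 : ℝ)) (hS : 0 ≤ S) (hS3 : (0 : ℝ) ≤ t4 + S)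
    (hl1 : (7 / 20 : ℝ) ≤ t1) (hh1 : t1 ≤ (1 : ℝ))
    (hl2 : (7 / 20 : ℝ) ≤ t2) (hh2 : t2 ≤ (1 : ℝ))
    (hl3 : (7 / 20 : ℝ) ≤ t3) (hh3 : t3 ≤ (1 : ℝ))
    (hl4 : (7 / 20 : ℝ) ≤ t4) (hh4 : t4 ≤ (1 : ℝ)) :
    t1 + t2 + t3 + t4 + S ≤ 9 / 4 := by
  obtain ⟨ε, ε4, ν1, ν2, ν3, ν4, he0, heS, he, hf0, hfS, hf, hc1, hc2, hc3, hc4, hsum⟩ := hcap
  have k := hsum (271 / 100 : ℝ) (83 / 40 : ℝ) (4501 / 10000 : ℝ) hTl (by norm_num [TailOK])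
  have hk : (7363 / 5000 : ℝ) ≤ (271 / 100 : ℝ) - (271 / 100 : ℝ) ^ 2 * ((83 / 40 : ℝ) - 1) / ((83 / 40 : ℝ) * ((83 / 40 : ℝ) + 1)) := by norm_num
  have hkS := mul_le_mul_of_nonneg_right hk hS
  have ok1 : CellOK (7 / 20 : ℝ) (1 : ℝ) (1 / 16 : ℝ) (1 : ℝ) (3 / 2 : ℝ) (2 / 5 : ℝ) (21 / 16 : ℝ) (0 : ℝ) (329 / 500 : ℝ) (1 / 2 : ℝ) (329 / 500 : ℝ) (467 / 1000 : ℝ) (57 / 100 : ℝ) := by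
    norm_num [CellOK, QOK, qf, dqf]
  have c1 := cell_bound ok1 hc1 he0 he hl1 hh1
  have c2 := cell_bound ok1 hc2 he0 he hl2 hh2
  have c3 := cell_bound ok1 hc3 he0 he hl3 hh3
  have c4 := cell_bound ok1 hc4 hf0 hf hl4 hh4
  linarith

theorem leaf3 {t1 t2 t3 t4 S : ℝ} {Tl : ℝ → Prop} (hcap : Cap4 t1 t2 t3 t4 S (1 / 9) 0 Tl)
    (hTl : Tl (17 / 100 : ℝ)) (hS : 0 ≤ S) (hS3 : (3 / 25 : ℝ) ≤ t4 + S)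
    (hl1 : (1 / 5 : ℝ) ≤ t1) (hh1 : t1 ≤ (1 : ℝ))
    (hl2 : (1 / 5 : ℝ) ≤ t2) (hh2 : t2 ≤ (1 : ℝ))
    (hl3 : (1 / 5 : ℝ) ≤ t3) (hh3 : t3 ≤ (1 : ℝ))
    (hl4 : (3 / 25 : ℝ) ≤ t4) (hh4 : t4 ≤ (17 / 100 : ℝ)) :
    t1 + t2 + t3 + t4 + S ≤ 9 / 4 := by
  obtain ⟨ε, ε4, ν1, ν2, ν3, ν4, he0, heS, he, hf0, hfS, hf, hc1, hc2, hc3, hc4, hsum⟩ := hcap
  have k := hsum (68 / 25 : ℝ) (1503 / 1000 : ℝ) (17 / 100 : ℝ) hTl (by norm_num [TailOK])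
  have hk : (17307 / 10000 : ℝ) ≤ (68 / 25 : ℝ) - (68 / 25 : ℝ) ^ 2 * ((1503 / 1000 : ℝ) - 1) / ((1503 / 1000 : ℝ) * ((1503 / 1000 : ℝ) + 1)) := by norm_num
  have hkS := mul_le_mul_of_nonneg_right hk hS
  have ok1 : CellOK (1 / 5 : ℝ) (1 : ℝ) (1 / 9 : ℝ) (1 : ℝ) (67 / 50 : ℝ) (7 / 20 : ℝ) (12417 / 10000 : ℝ) (0 : ℝ) (201 / 250 : ℝ) (199 / 500 : ℝ) (29 / 50 : ℝ) (399 / 1000 : ℝ) (57 / 100 : ℝ) := by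
    norm_num [CellOK, QOK, qf, dqf]
  have c1 := cell_bound ok1 hc1 he0 he hl1 hh1
  have c2 := cell_bound ok1 hc2 he0 he hl2 hh2
  have c3 := cell_bound ok1 hc3 he0 he hl3 hh3
  have ok4 : CellOK (3 / 25 : ℝ) (17 / 100 : ℝ) (0 : ℝ) (26 / 25 : ℝ) (67 / 50 : ℝ) (0 : ℝ) (12083 / 10000 : ℝ) (383 / 500 : ℝ) (809 / 1000 : ℝ) (0 : ℝ) (383 / 500 : ℝ) (0 : ℝ) (383 / 500 : ℝ) := by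
    norm_num [CellOK, QOK, qf, dqf]
  have c4 := cell_bound ok4 hc4 hf0 hf hl4 hh4
  linarith

theorem leaf4 {t1 t2 t3 t4 S : ℝ} {Tl : ℝ → Prop} (hcap : Cap4 t1 t2 t3 t4 S (1 / 16) (1 / 16) Tl)
    (hTl : Tl (27 / 100 : ℝ)) (hS : 0 ≤ S) (hS3 : (0 : ℝ) ≤ t4 + S)
    (hl1 : (1 / 5 : ℝ) ≤ t1) (hh1 : t1 ≤ (1 : ℝ))
    (hl2 : (1 / 5 : ℝ) ≤ t2) (hh2 : t2 ≤ (1 : ℝ))
    (hl3 : (1 / 5 : ℝ) ≤ t3) (hh3 : t3 ≤ (1 : ℝ))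
    (hl4 : (17 / 100 : ℝ) ≤ t4) (hh4 : t4 ≤ (27 / 100 : ℝ)) :
    t1 + t2 + t3 + t4 + S ≤ 9 / 4 := by
  obtain ⟨ε, ε4, ν1, ν2, ν3, ν4, he0, heS, he, hf0, hfS, hf, hc1, hc2, hc3, hc4, hsum⟩ := hcap
  have k := hsum (13 / 5 : ℝ) (1681 / 1000 : ℝ) (27 / 100 : ℝ) hTl (by norm_num [TailOK])
  have hk : (3157 / 2000 : ℝ) ≤ (13 / 5 : ℝ) - (13 / 5 : ℝ) ^ 2 * ((1681 / 1000 : ℝ) - 1) / ((1681 / 1000 : ℝ) * ((1681 / 1000 : ℝ) + 1)) := by norm_num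
  have hkS := mul_le_mul_of_nonneg_right hk hS
  have ok1 : CellOK (1 / 5 : ℝ) (1 : ℝ) (1 / 16 : ℝ) (1 : ℝ) (69 / 50 : ℝ) (1 / 5 : ℝ) (12583 / 10000 : ℝ) (0 : ℝ) (387 / 500 : ℝ) (209 / 500 : ℝ) (29 / 50 : ℝ) (9 / 20 : ℝ) (57 / 100 : ℝ) := by
    norm_num [CellOK, QOK, qf, dqf]
  have c1 := cell_bound ok1 hc1 he0 he hl1 hh1
  have c2 := cell_bound ok1 hc2 he0 he hl2 hh2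
  have c3 := cell_bound ok1 hc3 he0 he hl3 hh3
  have ok4 : CellOK (17 / 100 : ℝ) (27 / 100 : ℝ) (1 / 16 : ℝ) (1 : ℝ) (69 / 50 : ℝ) (7 / 10 : ℝ) (12339 / 10000 : ℝ) (693 / 1000 : ℝ) (801 / 1000 : ℝ) (0 : ℝ) (693 / 1000 : ℝ) (0 : ℝ) (693 / 1000 : ℝ) := by
    norm_num [CellOK, QOK, qf, dqf]
  have c4 := cell_bound ok4 hc4 hf0 hf hl4 hh4
  linarith

theorem leaf5 {t1 t2 t3 S : ℝ} {Tl : ℝ → Prop} (hcap : Cap3 t1 t2 t3 S Tl)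
    (hTl : Tl (1 / 5 : ℝ)) (hS : 0 ≤ S) (hS3 : (0 : ℝ) ≤ S)
    (hl1 : (3 / 25 : ℝ) ≤ t1) (hh1 : t1 ≤ (1 : ℝ))
    (hl2 : (3 / 25 : ℝ) ≤ t2) (hh2 : t2 ≤ (2 / 5 : ℝ))
    (hl3 : (3 / 25 : ℝ) ≤ t3) (hh3 : t3 ≤ (1 / 5 : ℝ)) :
    t1 + t2 + t3 + S ≤ 9 / 4 := by
  obtain ⟨ν1, ν2, ν3, hc1, hc2, hc3, hsum⟩ := hcap
  have k := hsum (67 / 25 : ℝ) (1561 / 1000 : ℝ) (1 / 5 : ℝ) hTl (by norm_num [TailOK])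
  have hk : (209 / 125 : ℝ) ≤ (67 / 25 : ℝ) - (67 / 25 : ℝ) ^ 2 * ((1561 / 1000 : ℝ) - 1) / ((1561 / 1000 : ℝ) * ((1561 / 1000 : ℝ) + 1)) := by norm_num
  have hkS := mul_le_mul_of_nonneg_right hk hS
  have ok1 : CellOK (3 / 25 : ℝ) (1 : ℝ) (0 : ℝ) (1 : ℝ) (6 / 5 : ℝ) (0 : ℝ) (11903 / 10000 : ℝ) (0 : ℝ) (809 / 1000 : ℝ) (339 / 1000 : ℝ) (809 / 1000 : ℝ) (339 / 1000 : ℝ) (809 / 1000 : ℝ) := by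
    norm_num [CellOK, QOK, qf, dqf]
  have c1 := cell_bound ok1 hc1 le_rfl le_rfl hl1 hh1
  have ok2 : CellOK (3 / 25 : ℝ) (2 / 5 : ℝ) (0 : ℝ) (1 : ℝ) (6 / 5 : ℝ) (0 : ℝ) (2819 / 2500 : ℝ) (303 / 500 : ℝ) (809 / 1000 : ℝ) (0 : ℝ) (303 / 500 : ℝ) (0 : ℝ) (303 / 500 : ℝ) := by
    norm_num [CellOK, QOK, qf, dqf]
  have c2 := cell_bound ok2 hc2 le_rfl le_rfl hl2 hh2
  have ok3 : CellOK (3 / 25 : ℝ) (1 / 5 : ℝ) (0 : ℝ) (1 : ℝ) (6 / 5 : ℝ) (0 : ℝ) (10923 / 10000 : ℝ) (743 / 1000 : ℝ) (809 / 1000 : ℝ) (0 : ℝ) (743 / 1000 : ℝ) (0 : ℝ) (743 / 1000 : ℝ) := by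
    norm_num [CellOK, QOK, qf, dqf]
  have c3 := cell_bound ok3 hc3 le_rfl le_rfl hl3 hh3
  linarith

theorem leaf6 {t1 t2 t3 t4 S : ℝ} {Tl : ℝ → Prop} (hcap : Cap4 t1 t2 t3 t4 S (1 / 16) (1 / 16) Tl)
    (hTl : Tl (1 / 5 : ℝ)) (hS : 0 ≤ S) (hS3 : (0 : ℝ) ≤ t4 + S)
    (hl1 : (2 / 5 : ℝ) ≤ t1) (hh1 : t1 ≤ (1 : ℝ))
    (hl2 : (2 / 5 : ℝ) ≤ t2) (hh2 : t2 ≤ (1 : ℝ))
    (hl3 : (3 / 25 : ℝ) ≤ t3) (hh3 : t3 ≤ (1 / 5 : ℝ))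
    (hl4 : (3 / 25 : ℝ) ≤ t4) (hh4 : t4 ≤ (1 / 5 : ℝ)) :
    t1 + t2 + t3 + t4 + S ≤ 9 / 4 := by
  obtain ⟨ε, ε4, ν1, ν2, ν3, ν4, he0, heS, he, hf0, hfS, hf, hc1, hc2, hc3, hc4, hsum⟩ := hcap
  have k := hsum (67 / 25 : ℝ) (1561 / 1000 : ℝ) (1 / 5 : ℝ) hTl (by norm_num [TailOK])
  have hk : (209 / 125 : ℝ) ≤ (67 / 25 : ℝ) - (67 / 25 : ℝ) ^ 2 * ((1561 / 1000 : ℝ) - 1) / ((1561 / 1000 : ℝ) * ((1561 / 1000 : ℝ) + 1)) := by norm_num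
  have hkS := mul_le_mul_of_nonneg_right hk hS
  have ok1 : CellOK (2 / 5 : ℝ) (1 : ℝ) (1 / 16 : ℝ) (1 : ℝ) (34 / 25 : ℝ) (1 / 5 : ℝ) (6249 / 5000 : ℝ) (0 : ℝ) (623 / 1000 : ℝ) (51 / 125 : ℝ) (623 / 1000 : ℝ) (437 / 1000 : ℝ) (57 / 100 : ℝ) := by
    norm_num [CellOK, QOK, qf, dqf]
  have c1 := cell_bound ok1 hc1 he0 he hl1 hh1
  have c2 := cell_bound ok1 hc2 he0 he hl2 hh2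
  have ok3 : CellOK (3 / 25 : ℝ) (1 / 5 : ℝ) (1 / 16 : ℝ) (1 : ℝ) (34 / 25 : ℝ) (4 / 5 : ℝ) (3087 / 2500 : ℝ) (743 / 1000 : ℝ) (427 / 500 : ℝ) (0 : ℝ) (743 / 1000 : ℝ) (0 : ℝ) (743 / 1000 : ℝ) := by
    norm_num [CellOK, QOK, qf, dqf]
  have c3 := cell_bound ok3 hc3 he0 he hl3 hh3
  have c4 := cell_bound ok3 hc4 hf0 hf hl4 hh4
  linarith

theorem leaf7 {t1 t2 t3 S : ℝ} {Tl : ℝ → Prop} (hcap : Cap3 t1 t2 t3 S Tl)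
    (hTl : Tl (3 / 100 : ℝ)) (hS : 0 ≤ S) (hS3 : (0 : ℝ) ≤ S)
    (hl1 : (0 : ℝ) ≤ t1) (hh1 : t1 ≤ (1 : ℝ))
    (hl2 : (0 : ℝ) ≤ t2) (hh2 : t2 ≤ (1 : ℝ))
    (hl3 : (0 : ℝ) ≤ t3) (hh3 : t3 ≤ (13 / 50 : ℝ)) :
    t1 + t2 + t3 + S ≤ 9 / 4 := by
  obtain ⟨ν1, ν2, ν3, hc1, hc2, hc3, hsum⟩ := hcap
  have k := hsum (77 / 20 : ℝ) (601 / 500 : ℝ) (3 / 100 : ℝ) hTl (by norm_num [TailOK])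
  have hk : (27187 / 10000 : ℝ) ≤ (77 / 20 : ℝ) - (77 / 20 : ℝ) ^ 2 * ((601 / 500 : ℝ) - 1) / ((601 / 500 : ℝ) * ((601 / 500 : ℝ) + 1)) := by norm_num
  have hkS := mul_le_mul_of_nonneg_right hk hS
  have ok1 : CellOK (0 : ℝ) (1 : ℝ) (0 : ℝ) (1 : ℝ) (9 / 10 : ℝ) (0 : ℝ) (2209 / 2000 : ℝ) (0 : ℝ) (1 : ℝ) (239 / 1000 : ℝ) (1 : ℝ) (239 / 1000 : ℝ) (1 : ℝ) := by
    norm_num [CellOK, QOK, qf, dqf]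
  have c1 := cell_bound ok1 hc1 le_rfl le_rfl hl1 hh1
  have c2 := cell_bound ok1 hc2 le_rfl le_rfl hl2 hh2
  have ok3 : CellOK (0 : ℝ) (13 / 50 : ℝ) (0 : ℝ) (1 : ℝ) (9 / 10 : ℝ) (0 : ℝ) (9 / 10 : ℝ) (7 / 10 : ℝ) (1 : ℝ) (0 : ℝ) (7 / 10 : ℝ) (0 : ℝ) (7 / 10 : ℝ) := by
    norm_num [CellOK, QOK, qf, dqf]
  have c3 := cell_bound ok3 hc3 le_rfl le_rfl hl3 hh3
  linarith

theorem leaf8 {t1 t2 t3 S : ℝ} {Tl : ℝ → Prop} (hcap : Cap3 t1 t2 t3 S Tl)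
    (hTl : Tl (3 / 25 : ℝ)) (hS : 0 ≤ S) (hS3 : (0 : ℝ) ≤ S)
    (hl1 : (3 / 100 : ℝ) ≤ t1) (hh1 : t1 ≤ (1 : ℝ))
    (hl2 : (3 / 100 : ℝ) ≤ t2) (hh2 : t2 ≤ (1 : ℝ))
    (hl3 : (3 / 100 : ℝ) ≤ t3) (hh3 : t3 ≤ (13 / 50 : ℝ)) :
    t1 + t2 + t3 + S ≤ 9 / 4 := by
  obtain ⟨ν1, ν2, ν3, hc1, hc2, hc3, hsum⟩ := hcap
  have k := hsum (141 / 50 : ℝ) (699 / 500 : ℝ) (3 / 25 : ℝ) hTl (by norm_num [TailOK])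
  have hk : (9379 / 5000 : ℝ) ≤ (141 / 50 : ℝ) - (141 / 50 : ℝ) ^ 2 * ((699 / 500 : ℝ) - 1) / ((699 / 500 : ℝ) * ((699 / 500 : ℝ) + 1)) := by norm_num
  have hkS := mul_le_mul_of_nonneg_right hk hS
  have ok1 : CellOK (3 / 100 : ℝ) (1 : ℝ) (0 : ℝ) (1 : ℝ) (27 / 25 : ℝ) (0 : ℝ) (11523 / 10000 : ℝ) (0 : ℝ) (91 / 100 : ℝ) (37 / 125 : ℝ) (91 / 100 : ℝ) (37 / 125 : ℝ) (91 / 100 : ℝ) := by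
    norm_num [CellOK, QOK, qf, dqf]
  have c1 := cell_bound ok1 hc1 le_rfl le_rfl hl1 hh1
  have c2 := cell_bound ok1 hc2 le_rfl le_rfl hl2 hh2
  have ok3 : CellOK (3 / 100 : ℝ) (13 / 50 : ℝ) (0 : ℝ) (1 : ℝ) (27 / 25 : ℝ) (0 : ℝ) (10161 / 10000 : ℝ) (7 / 10 : ℝ) (91 / 100 : ℝ) (0 : ℝ) (7 / 10 : ℝ) (0 : ℝ) (7 / 10 : ℝ) := by
    norm_num [CellOK, QOK, qf, dqf]
  have c3 := cell_bound ok3 hc3 le_rfl le_rfl hl3 hh3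
  linarith

theorem leaf9 {t1 t2 t3 S : ℝ} {Tl : ℝ → Prop} (hcap : Cap3 t1 t2 t3 S Tl)
    (hTl : Tl (3 / 100 : ℝ)) (hS : 0 ≤ S) (hS3 : (17 / 100 : ℝ) ≤ S)
    (hl1 : (13 / 50 : ℝ) ≤ t1) (hh1 : t1 ≤ (1 : ℝ))
    (hl2 : (13 / 50 : ℝ) ≤ t2) (hh2 : t2 ≤ (1 : ℝ))
    (hl3 : (13 / 50 : ℝ) ≤ t3) (hh3 : t3 ≤ (1 : ℝ)) :
    t1 + t2 + t3 + S ≤ 9 / 4 := by
  obtain ⟨ν1, ν2, ν3, hc1, hc2, hc3, hsum⟩ := hcap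
  have k := hsum (77 / 20 : ℝ) (601 / 500 : ℝ) (3 / 100 : ℝ) hTl (by norm_num [TailOK])
  have hk : (27187 / 10000 : ℝ) ≤ (77 / 20 : ℝ) - (77 / 20 : ℝ) ^ 2 * ((601 / 500 : ℝ) - 1) / ((601 / 500 : ℝ) * ((601 / 500 : ℝ) + 1)) := by norm_num
  have hkS := mul_le_mul_of_nonneg_right hk hS
  have ok1 : CellOK (13 / 50 : ℝ) (1 : ℝ) (0 : ℝ) (1 : ℝ) (34 / 25 : ℝ) (0 : ℝ) (6249 / 5000 : ℝ) (0 : ℝ) (701 / 1000 : ℝ) (51 / 125 : ℝ) (701 / 1000 : ℝ) (51 / 125 : ℝ) (701 / 1000 : ℝ) := by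
    norm_num [CellOK, QOK, qf, dqf]
  have c1 := cell_bound ok1 hc1 le_rfl le_rfl hl1 hh1
  have c2 := cell_bound ok1 hc2 le_rfl le_rfl hl2 hh2
  have c3 := cell_bound ok1 hc3 le_rfl le_rfl hl3 hh3
  linarith

theorem leaf10 {t1 t2 t3 t4 S : ℝ} {Tl : ℝ → Prop} (hcap : Cap4 t1 t2 t3 t4 S (1 / 9) 0 Tl)
    (hTl : Tl (7 / 100 : ℝ)) (hS : 0 ≤ S) (hS3 : (17 / 100 : ℝ) ≤ t4 + S)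
    (hl1 : (13 / 50 : ℝ) ≤ t1) (hh1 : t1 ≤ (1 : ℝ))
    (hl2 : (13 / 50 : ℝ) ≤ t2) (hh2 : t2 ≤ (1 : ℝ))
    (hl3 : (13 / 50 : ℝ) ≤ t3) (hh3 : t3 ≤ (1 : ℝ))
    (hl4 : (3 / 100 : ℝ) ≤ t4) (hh4 : t4 ≤ (7 / 100 : ℝ)) :
    t1 + t2 + t3 + t4 + S ≤ 9 / 4 := by
  obtain ⟨ε, ε4, ν1, ν2, ν3, ν4, he0, heS, he, hf0, hfS, hf, hc1, hc2, hc3, hc4, hsum⟩ := hcap
  have k := hsum (159 / 50 : ℝ) (1307 / 1000 : ℝ) (7 / 100 : ℝ) hTl (by norm_num [TailOK])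
  have hk : (21503 / 10000 : ℝ) ≤ (159 / 50 : ℝ) - (159 / 50 : ℝ) ^ 2 * ((1307 / 1000 : ℝ) - 1) / ((1307 / 1000 : ℝ) * ((1307 / 1000 : ℝ) + 1)) := by norm_num
  have hkS := mul_le_mul_of_nonneg_right hk hS
  have ok1 : CellOK (13 / 50 : ℝ) (1 : ℝ) (1 / 9 : ℝ) (1 : ℝ) (33 / 25 : ℝ) (1 / 5 : ℝ) (617 / 500 : ℝ) (0 : ℝ) (187 / 250 : ℝ) (389 / 1000 : ℝ) (187 / 250 : ℝ) (439 / 1000 : ℝ) (187 / 250 : ℝ) := by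
    norm_num [CellOK, QOK, qf, dqf]
  have c1 := cell_bound ok1 hc1 he0 he hl1 hh1
  have c2 := cell_bound ok1 hc2 he0 he hl2 hh2
  have c3 := cell_bound ok1 hc3 he0 he hl3 hh3
  have ok4 : CellOK (3 / 100 : ℝ) (7 / 100 : ℝ) (0 : ℝ) (67 / 50 : ℝ) (33 / 25 : ℝ) (0 : ℝ) (1551 / 1250 : ℝ) (857 / 1000 : ℝ) (91 / 100 : ℝ) (0 : ℝ) (857 / 1000 : ℝ) (0 : ℝ) (857 / 1000 : ℝ) := by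
    norm_num [CellOK, QOK, qf, dqf]
  have c4 := cell_bound ok4 hc4 hf0 hf hl4 hh4
  linarith

theorem leaf11 {t1 t2 t3 t4 S : ℝ} {Tl : ℝ → Prop} (hcap : Cap4 t1 t2 t3 t4 S (1 / 9) 0 Tl)
    (hTl : Tl (3 / 25 : ℝ)) (hS : 0 ≤ S) (hS3 : (17 / 100 : ℝ) ≤ t4 + S)
    (hl1 : (13 / 50 : ℝ) ≤ t1) (hh1 : t1 ≤ (1 : ℝ))
    (hl2 : (13 / 50 : ℝ) ≤ t2) (hh2 : t2 ≤ (1 : ℝ))
    (hl3 : (13 / 50 : ℝ) ≤ t3) (hh3 : t3 ≤ (1 : ℝ))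
    (hl4 : (7 / 100 : ℝ) ≤ t4) (hh4 : t4 ≤ (3 / 25 : ℝ)) :
    t1 + t2 + t3 + t4 + S ≤ 9 / 4 := by
  obtain ⟨ε, ε4, ν1, ν2, ν3, ν4, he0, heS, he, hf0, hfS, hf, hc1, hc2, hc3, hc4, hsum⟩ := hcap
  have k := hsum (141 / 50 : ℝ) (699 / 500 : ℝ) (3 / 25 : ℝ) hTl (by norm_num [TailOK])
  have hk : (9379 / 5000 : ℝ) ≤ (141 / 50 : ℝ) - (141 / 50 : ℝ) ^ 2 * ((699 / 500 : ℝ) - 1) / ((699 / 500 : ℝ) * ((699 / 500 : ℝ) + 1)) := by norm_num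
  have hkS := mul_le_mul_of_nonneg_right hk hS
  have ok1 : CellOK (13 / 50 : ℝ) (1 : ℝ) (1 / 9 : ℝ) (1 : ℝ) (33 / 25 : ℝ) (1 / 5 : ℝ) (617 / 500 : ℝ) (0 : ℝ) (187 / 250 : ℝ) (389 / 1000 : ℝ) (187 / 250 : ℝ) (439 / 1000 : ℝ) (187 / 250 : ℝ) := by
    norm_num [CellOK, QOK, qf, dqf]
  have c1 := cell_bound ok1 hc1 he0 he hl1 hh1
  have c2 := cell_bound ok1 hc2 he0 he hl2 hh2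
  have c3 := cell_bound ok1 hc3 he0 he hl3 hh3
  have ok4 : CellOK (7 / 100 : ℝ) (3 / 25 : ℝ) (0 : ℝ) (233 / 200 : ℝ) (33 / 25 : ℝ) (0 : ℝ) (12137 / 10000 : ℝ) (101 / 125 : ℝ) (429 / 500 : ℝ) (0 : ℝ) (101 / 125 : ℝ) (0 : ℝ) (101 / 125 : ℝ) := by
    norm_num [CellOK, QOK, qf, dqf]
  have c4 := cell_bound ok4 hc4 hf0 hf hl4 hh4
  linarith

end Crest.Agent.R215
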