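import Crest.Agent.R215.NumLeaves

/-! The numerical case analysis. -/

namespace Crest.Agent.R215

open Real

theorem sqrt_le_quad {u : ℝ} (h0 : 0 ≤ u) (h4 : u ≤ 4) :
    √u ≤ 3 / 4 + u / 3 - (u - 9 / 4) ^ 2 * (4 / 147) := by
  set a := √u with ha
  have ha0 : 0 ≤ a := Real.sqrt_nonneg u
  have hu : u = a ^ 2 := (Real.sq_sqrt h0).symm
  have ha2 : a ≤ 2 := by
    apply Real.sqrt_le_iff.mpr
    exact ⟨by norm_num, by linarith⟩
  have h1 : (a + 3 / 2) ^ 2 ≤ 49 / 4 := by nlinarith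
  have h2 : (a - 3 / 2) ^ 2 * (a + 3 / 2) ^ 2 ≤ (a - 3 / 2) ^ 2 * (49 / 4) :=
    mul_le_mul_of_nonneg_left h1 (sq_nonneg _)
  rw [hu]
  nlinarith

theorem e2_lower {m p : ℝ} (hp : 9 / 100 ≤ p) (hm : p ≤ 2 * m) (hs : 191 / 200 ≤ m + p) :
    389 / 5000 ≤ m * p := by
  rcases le_total p (2 / 5) with h | h
  · nlinarith [mul_nonneg (sub_nonneg.2 hp) (show (0 : ℝ) ≤ 173 / 200 - p by linarith)]
  · nlinarith

theorem cubic_aux {e : ℝ} (he0 : 389 / 5000 ≤ e) (hc : e ≤ 38 / 125) :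
    137 / 5000 ≤ (7134 / 10000 - 162 / 125 * e) ^ 2 * e := by
  have m1 := mul_nonneg (sub_nonneg.2 he0) (sub_nonneg.2 hc)
  have m2 := mul_nonneg m1 (sub_nonneg.2 hc)
  nlinarith

theorem schemeA_end {τ s e D V A : ℝ} (hτ0 : 0 ≤ τ) (hτ : τ ≤ 17 / 100) (hs0 : 0 ≤ s)
    (hs : s ^ 2 ≤ 3 / 25) (he0 : 389 / 5000 ≤ e) (hD0 : 0 ≤ D) (hV0 : 0 ≤ V)
    (hAl : 191 / 200 ≤ A) (hVe : V = 2 / 3 * A ^ 2 - 2 * e) (hDV : 81 / 10 * V - 867 / 5000 ≤ D)
    (hmain : τ / 3 + D * (2 / 147) < 3 * s * τ / (2 * π * √e)) : False := by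
  have hepos : 0 < e := by linarith
  have hse : 0 < √e := Real.sqrt_pos.mpr hepos
  obtain ⟨Z, hZ⟩ : ∃ Z : ℝ, Z = 1 / 3 + 2 / 25 * D := ⟨_, rfl⟩
  have hZτ : Z * τ < 3 * s / (2 * π * √e) * τ := by
    have h0 : D * τ ≤ D * (17 / 100) := mul_le_mul_of_nonneg_left hτ hD0
    have h2 : 3 * s * τ / (2 * π * √e) = 3 * s / (2 * π * √e) * τ := by ring
    have h3 : Z * τ = τ / 3 + 2 / 25 * (D * τ) := by rw [hZ]; ring
    linarith
  have hZlt : Z < 3 * s / (2 * π * √e) := lt_of_mul_lt_mul_right hZτ hτ0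
  have hπ : 3.1415 < π := Real.pi_gt_d4
  have hZ2 : Z * (2 * π * √e) < 3 * s := by
    rwa [lt_div_iff₀ (by positivity)] at hZlt
  have hZpos : 0 < Z := by rw [hZ]; positivity
  have hZ3 : Z * √e * (6283 / 1000) < 3 * s := by
    have h1 : Z * √e * (6283 / 1000) ≤ Z * √e * (2 * π) :=
      mul_le_mul_of_nonneg_left (by linarith) (by positivity)
    have h2 : Z * √e * (2 * π) = Z * (2 * π * √e) := by ring
    linarith
  have hZ4 : (Z * √e * (6283 / 1000)) ^ 2 < (3 * s) ^ 2 :=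
    pow_lt_pow_left₀ hZ3 (by positivity) (by norm_num)
  have hZ5 : Z ^ 2 * e < 137 / 5000 := by
    have h1 : (Z * √e * (6283 / 1000)) ^ 2 = Z ^ 2 * e * (6283 / 1000) ^ 2 := by
      rw [mul_pow, mul_pow, Real.sq_sqrt hepos.le]
    have h2 : (3 * s) ^ 2 = 9 * s ^ 2 := by ring
    rw [h1, h2] at hZ4
    linarith
  have hA2 : (191 / 200) ^ 2 ≤ A ^ 2 := pow_le_pow_left₀ (by norm_num) hAl 2
  rcases le_total e (38 / 125) with hc | hc
  · have hz1 : 7134 / 10000 - 162 / 125 * e ≤ Z := by rw [hZ]; linarith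
    have hz0 : 0 ≤ 7134 / 10000 - 162 / 125 * e := by linarith
    have hz2 : (7134 / 10000 - 162 / 125 * e) ^ 2 ≤ Z ^ 2 := pow_le_pow_left₀ hz0 hz1 2
    have hz3 := mul_le_mul_of_nonneg_right hz2 hepos.le
    have hz4 : 137 / 5000 ≤ (7134 / 10000 - 162 / 125 * e) ^ 2 * e := cubic_aux he0 hc
    linarith
  · have hz1 : 3194 / 10000 ≤ Z := by rw [hZ]; linarith
    have hz2 : (3194 / 10000) ^ 2 ≤ Z ^ 2 := pow_le_pow_left₀ (by norm_num) hz1 2
    have hz3 : (3194 / 10000) ^ 2 * (38 / 125) ≤ Z ^ 2 * e :=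
      mul_le_mul hz2 hc (by norm_num) (sq_nonneg _)
    linarith

theorem schemeA_num {w1 w2 w3 ρ1 ρ2 ρ3 τ t1 t2 t3 s : ℝ}
    (hw1 : 0 ≤ w1) (hw2 : 0 ≤ w2) (hw3 : 0 ≤ w3) (hρ1 : 0 ≤ ρ1) (hρ2 : 0 ≤ ρ2) (hρ3 : 0 ≤ ρ3)
    (hr : ρ1 + ρ2 + ρ3 ≤ τ) (hτ : τ ≤ 17 / 100)
    (ht1 : t1 = w2 + w3 + ρ1) (ht2 : t2 = w1 + w3 + ρ2) (ht3 : t3 = w1 + w2 + ρ3)
    (hl1 : 13 / 50 ≤ t1) (hl2 : 13 / 50 ≤ t2) (hl3 : 13 / 50 ≤ t3)
    (hh1 : t1 ≤ 1) (hh2 : t2 ≤ 1) (hh3 : t3 ≤ 1)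
    (hs0 : 0 ≤ s) (hs : s ^ 2 ≤ 3 / 25)
    (hA : 0 < w1 * w2 + w1 * w3 + w2 * w3 →
      (t1 + t2 + t3 - (ρ1 + ρ2 + ρ3) / 3) + τ ≤
        (√(t2 + t3 + 2 * w1) + √(t1 + t3 + 2 * w2) + √(t1 + t2 + 2 * w3)) / 2 +
          3 * s * τ / (2 * π * √(w1 * w2 + w1 * w3 + w2 * w3))) :
    t1 + t2 + t3 + τ ≤ 9 / 4 := by
  by_contra hcon
  push Not at hcon
  set e := w1 * w2 + w1 * w3 + w2 * w3 with he
  have hτ0 : 0 ≤ τ := by linarith
  have hAl : 191 / 200 ≤ w1 + w2 + w3 := by linarith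
  have he0 : 389 / 5000 ≤ e := by
    have p12 := mul_nonneg hw1 hw2
    have p13 := mul_nonneg hw1 hw3
    have p23 := mul_nonneg hw2 hw3
    rcases le_total w1 w2 with h12 | h12
    · rcases le_total w2 w3 with h23 | h23
      · have := e2_lower (m := w3) (p := w1 + w2) (by linarith) (by linarith) (by linarith)
        nlinarith
      · have := e2_lower (m := w2) (p := w1 + w3) (by linarith) (by linarith) (by linarith)
        nlinarith
    · rcases le_total w1 w3 with h13 | h13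
      · have := e2_lower (m := w3) (p := w1 + w2) (by linarith) (by linarith) (by linarith)
        nlinarith
      · have := e2_lower (m := w1) (p := w2 + w3) (by linarith) (by linarith) (by linarith)
        nlinarith
  have hepos : 0 < e := by linarith
  have hA' := hA hepos
  have b1 := sqrt_le_quad (u := t2 + t3 + 2 * w1) (by linarith) (by linarith)
  have b2 := sqrt_le_quad (u := t1 + t3 + 2 * w2) (by linarith) (by linarith)
  have b3 := sqrt_le_quad (u := t1 + t2 + 2 * w3) (by linarith) (by linarith)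
  set D := (t2 + t3 + 2 * w1 - 9 / 4) ^ 2 + (t1 + t3 + 2 * w2 - 9 / 4) ^ 2 +
    (t1 + t2 + 2 * w3 - 9 / 4) ^ 2 with hD
  have hD0 : 0 ≤ D := by positivity
  set A := w1 + w2 + w3 with hAdef
  set r := ρ1 + ρ2 + ρ3 with hrdef
  have hr0 : 0 ≤ r := by linarith
  set V := (w1 - A / 3) ^ 2 + (w2 - A / 3) ^ 2 + (w3 - A / 3) ^ 2 with hV
  have hV0 : 0 ≤ V := by positivity
  have hVe : V = 2 / 3 * A ^ 2 - 2 * e := by rw [hV, he, hAdef]; ring
  have hRR : (ρ1 - r / 3) ^ 2 + (ρ2 - r / 3) ^ 2 + (ρ3 - r / 3) ^ 2 ≤ 2 / 3 * r ^ 2 := by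
    have p12 := mul_nonneg hρ1 hρ2
    have p13 := mul_nonneg hρ1 hρ3
    have p23 := mul_nonneg hρ2 hρ3
    rw [hrdef]; nlinarith
  have hr2 : r ^ 2 ≤ (17 / 100) ^ 2 := pow_le_pow_left₀ hr0 (by linarith) 2
  have hDV : 81 / 10 * V - 867 / 5000 ≤ D := by
    have hid : D = (3 * (w1 - A / 3) - (ρ1 - r / 3)) ^ 2 + (3 * (w2 - A / 3) - (ρ2 - r / 3)) ^ 2 +
        (3 * (w3 - A / 3) - (ρ3 - r / 3)) ^ 2 + 3 * (2 * A + 2 * r / 3 - 9 / 4) ^ 2 := by
      rw [hD, ht1, ht2, ht3, hAdef, hrdef]; ring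
    have q : ∀ a b : ℝ, 81 / 10 * a ^ 2 - 9 * b ^ 2 ≤ (3 * a - b) ^ 2 := by
      intro a b; nlinarith [sq_nonneg (3 * a - 10 * b)]
    have q1 := q (w1 - A / 3) (ρ1 - r / 3)
    have q2 := q (w2 - A / 3) (ρ2 - r / 3)
    have q3 := q (w3 - A / 3) (ρ3 - r / 3)
    have q4 := sq_nonneg (2 * A + 2 * r / 3 - 9 / 4)
    rw [hid, hV]; linarith
  -- the main strict inequality
  have hse : 0 < √e := Real.sqrt_pos.mpr hepos
  have hmain : τ / 3 + D * (2 / 147) < 3 * s * τ / (2 * π * √e) := by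
    have hsum : (t2 + t3 + 2 * w1) + (t1 + t3 + 2 * w2) + (t1 + t2 + 2 * w3) =
        3 * (t1 + t2 + t3 - r / 3) := by rw [ht1, ht2, ht3, hrdef]; ring
    linarith
  exact schemeA_end hτ0 hτ hs0 hs he0 hD0 hV0 hAl hVe hDV hmain

theorem numeric_main {t1 t2 t3 t4 S : ℝ} {Tl : ℝ → Prop}
    (h12 : t2 ≤ t1) (h23 : t3 ≤ t2) (h34 : t4 ≤ t3) (h1 : t1 ≤ 1) (h4 : 0 ≤ t4) (hS : 0 ≤ S)
    (hT : t1 + t2 + t3 + t4 + S ≤ 22501 / 10000)
    (hTl4 : ∀ x, t4 ≤ x → Tl x) (hTl5 : ∀ x, ¬ Tl x → x ≤ t4 ∧ x ≤ S)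
    (V1 : Cap4 t1 t2 t3 t4 S (1 / 16) (1 / 16) Tl)
    (V2 : Cap4 t1 t2 t3 t4 S (1 / 9) 0 Tl)
    (V3 : Cap3 t1 t2 t3 (t4 + S) (fun x => t4 ≤ x))
    (VA : t4 ≤ 3 / 25 → t4 + S ≤ 17 / 100 → 13 / 50 ≤ t3 → t1 + t2 + t3 + t4 + S ≤ 9 / 4) :
    t1 + t2 + t3 + t4 + S ≤ 9 / 4 := by
  rcases le_total (27 / 100) t4 with a1 | a1
  · by_cases b1 : Tl (7 / 20)
    · exact leaf1 V1 b1 hS (by linarith) (by linarith) (by linarith) (by linarith) (by linarith)
        (by linarith) (by linarith) (by linarith) (by linarith)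
    · obtain ⟨c1, -⟩ := hTl5 _ b1
      have c2 : Tl (4501 / 10000) := by
        by_contra hc
        obtain ⟨d1, d2⟩ := hTl5 _ hc
        linarith
      exact leaf2 V1 c2 hS (by linarith) (by linarith) (by linarith) (by linarith) (by linarith)
        (by linarith) (by linarith) (by linarith) (by linarith)
  rcases le_total (3 / 25) t4 with a2 | a2
  · rcases le_total (1 / 5) t3 with b1 | b1
    · rcases le_total t4 (17 / 100) with c1 | c1
      · exact leaf3 V2 (hTl4 _ c1) hS (by linarith) (by linarith) (by linarith) (by linarith)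
          (by linarith) (by linarith) (by linarith) (by linarith) (by linarith)
      · exact leaf4 V1 (hTl4 _ a1) hS (by linarith) (by linarith) (by linarith) (by linarith)
          (by linarith) (by linarith) (by linarith) (by linarith) (by linarith)
    · rcases le_total t2 (2 / 5) with c1 | c1
      · have := leaf5 V3 (show t4 ≤ _ by linarith) (by linarith) (by linarith) (by linarith)
          (by linarith) (by linarith) (by linarith) (by linarith) (by linarith)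
        linarith
      · exact leaf6 V1 (hTl4 _ (by linarith)) hS (by linarith) (by linarith) (by linarith)
          (by linarith) (by linarith) (by linarith) (by linarith) (by linarith) (by linarith)
  rcases le_total t3 (13 / 50) with b1 | b1
  · rcases le_total t4 (3 / 100) with c1 | c1
    · have := leaf7 V3 (show t4 ≤ _ by linarith) (by linarith) (by linarith) (by linarith)
        (by linarith) (by linarith) (by linarith) (by linarith) (by linarith)
      linarith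
    · have := leaf8 V3 (show t4 ≤ _ by linarith) (by linarith) (by linarith) (by linarith)
        (by linarith) (by linarith) (by linarith) (by linarith) (by linarith)
      linarith
  rcases le_total (t4 + S) (17 / 100) with c1 | c1
  · exact VA a2 c1 b1
  rcases le_total t4 (3 / 100) with d1 | d1
  · have := leaf9 V3 (show t4 ≤ _ by linarith) (by linarith) (by linarith) (by linarith)
      (by linarith) (by linarith) (by linarith) (by linarith) (by linarith)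
    linarith
  rcases le_total t4 (7 / 100) with d2 | d2
  · exact leaf10 V2 (hTl4 _ d2) hS (by linarith) (by linarith) (by linarith) (by linarith)
      (by linarith) (by linarith) (by linarith) (by linarith) (by linarith)
  · exact leaf11 V2 (hTl4 _ a2) hS (by linarith) (by linarith) (by linarith) (by linarith)
      (by linarith) (by linarith) (by linarith) (by linarith) (by linarith)

end Crest.Agent.R215
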