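import Crest.Agent.R215.Frame
import Crest.Agent.R215.CoreSmall

/-! Three-cell formula and the small-ball estimate. -/

open MeasureTheory ProbabilityTheory Real Module
open scoped RealInnerProductSpace

namespace Crest.Agent.R215

variable {E : Type*} [NormedAddCommGroup E] [InnerProductSpace ℝ E] [FiniteDimensional ℝ E]
  [MeasurableSpace E] [BorelSpace E]

/-- maximum of three linear functionals -/
noncomputable def max3 (a b c g : E) : ℝ := max ⟪a, g⟫ (max ⟪b, g⟫ ⟪c, g⟫)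

omit [FiniteDimensional ℝ E] [MeasurableSpace E] [BorelSpace E] in
theorem continuous_max3 (a b c : E) : Continuous (max3 a b c) := by
  unfold max3; fun_prop

theorem integrable_max3 (a b c : E) : Integrable (max3 a b c) (stdGaussian E) :=
  (integrable_inner_gauss a).sup ((integrable_inner_gauss b).sup (integrable_inner_gauss c))

theorem integral_abs_inner_le (v : E) :
    √(2 * π) * ∫ g, |⟪v, g⟫| ∂stdGaussian E ≤ 2 * ‖v‖ := by
  have h : ∀ g, |⟪v, g⟫| = max ⟪v, g⟫ 0 + max ⟪-v, g⟫ 0 := by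
    intro g
    rw [inner_neg_left]
    rcases le_total 0 ⟪v, g⟫ with h | h
    · rw [abs_of_nonneg h, max_eq_left h, max_eq_right (by linarith), add_zero]
    · rw [abs_of_nonpos h, max_eq_right h, max_eq_left (by linarith), zero_add]
  simp_rw [h]
  have i1 : Integrable (fun g => max ⟪v, g⟫ 0) (stdGaussian E) :=
    (integrable_inner_gauss v).sup (integrable_const 0)
  have i2 : Integrable (fun g => max ⟪-v, g⟫ 0) (stdGaussian E) :=
    (integrable_inner_gauss (-v)).sup (integrable_const 0)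
  rw [integral_add i1 i2, mul_add]
  have := integral_posPart_inner v
  have := integral_posPart_inner (-v)
  rw [norm_neg] at this
  linarith

theorem integral_max3_le (a b c : E) :
    √(2 * π) * ∫ g, max3 a b c g ∂stdGaussian E ≤ (‖b - c‖ + ‖a - c‖ + ‖a - b‖) / 2 := by
  have h1 : ∫ g, max3 a b c (-g) ∂stdGaussian E = ∫ g, max3 a b c g ∂stdGaussian E :=
    (measurePreserving_neg_gauss (E := E)).integral_comp
      (Homeomorph.neg E).measurableEmbedding _
  have i1 : Integrable (fun g => max3 a b c (-g)) (stdGaussian E) :=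
    (measurePreserving_neg_gauss (E := E)).integrable_comp_of_integrable (integrable_max3 a b c)
  have h2 : ∀ g, max3 a b c g + max3 a b c (-g) =
      (|⟪b - c, g⟫| + |⟪a - c, g⟫| + |⟪a - b, g⟫|) / 2 := by
    intro g
    simp only [max3, inner_neg_right, inner_sub_left]
    generalize ⟪a, g⟫ = x
    generalize ⟪b, g⟫ = y
    generalize ⟪c, g⟫ = z
    simp only [max_def, abs]
    split_ifs <;> linarith
  have h3 : ∫ g, max3 a b c g ∂stdGaussian E + ∫ g, max3 a b c (-g) ∂stdGaussian E =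
      (∫ g, |⟪b - c, g⟫| ∂stdGaussian E + ∫ g, |⟪a - c, g⟫| ∂stdGaussian E +
        ∫ g, |⟪a - b, g⟫| ∂stdGaussian E) / 2 := by
    rw [← integral_add (integrable_max3 a b c) i1]
    simp_rw [h2]
    rw [integral_div, integral_add, integral_add]
    · exact (integrable_inner_gauss _).abs
    · exact (integrable_inner_gauss _).abs
    · exact ((integrable_inner_gauss _).abs).add (integrable_inner_gauss _).abs
    · exact (integrable_inner_gauss _).abs
  rw [h1] at h3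
  have e1 := integral_abs_inner_le (b - c)
  have e2 := integral_abs_inner_le (a - c)
  have e3 := integral_abs_inner_le (a - b)
  have h4 := congrArg (fun t => √(2 * π) * t) h3
  linarith

theorem quad_lower {p q r x : ℝ} :
    p * q + p * r + q * r ≤ (p + q) * (p * (x - 1) ^ 2 + q * x ^ 2 + r * 1 ^ 2) := by
  nlinarith [sq_nonneg ((p + q) * x - p)]

theorem smallBall (x y1 y2 : E) {p q r : ℝ} (hp : 0 ≤ p) (hq : 0 ≤ q) (hr : 0 ≤ r)
    (he : 0 < p * q + p * r + q * r)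
    (hQ : ∀ α1 α2 β : ℝ, p * (α1 - α2) ^ 2 + q * α1 ^ 2 + r * α2 ^ 2 ≤
      ‖α1 • y1 + α2 • y2 + β • x‖ ^ 2) :
    √(2 * π) * ∫ g, max (⟪x, g⟫ - max3 y1 y2 (-y1 - y2) g) 0 ∂stdGaussian E ≤
      3 * ‖x‖ ^ 3 / (2 * π * √(p * q + p * r + q * r)) := by
  have hpos : 0 < √(2 * π) := Real.sqrt_pos.mpr (by positivity)
  rcases eq_or_ne x 0 with rfl | hx0
  · have : ∀ g, max (⟪(0 : E), g⟫ - max3 y1 y2 (-y1 - y2) g) 0 = 0 := by
      intro g
      apply max_eq_right
      simp only [max3, inner_zero_left, inner_sub_left, inner_neg_left]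
      generalize ⟪y1, g⟫ = a
      generalize ⟪y2, g⟫ = b
      simp only [max_def]
      split_ifs <;> linarith
    simp_rw [this]
    simp
  have hs : 0 < ‖x‖ := norm_pos_iff.mpr hx0
  set s := ‖x‖ with hsdef
  have hpq : 0 < p + q := by
    rcases eq_or_lt_of_le (add_nonneg hp hq) with h | h
    · have hp0 : p = 0 := by linarith
      have hq0 : q = 0 := by linarith
      rw [hp0, hq0] at he
      simp at he
    · exact h
  obtain ⟨e0, he0⟩ : ∃ e0 : E, e0 = s⁻¹ • x := ⟨_, rfl⟩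
  have n0 : ‖e0‖ = 1 := by rw [he0, norm_smul, norm_inv, norm_norm, inv_mul_cancel₀ hs.ne']
  have i00 : ⟪e0, e0⟫ = 1 := by rw [real_inner_self_eq_norm_sq, n0]; norm_num
  have hxe : x = s • e0 := by rw [he0, smul_smul, mul_inv_cancel₀ hs.ne', one_smul]
  obtain ⟨γ1, hγ1⟩ : ∃ t, t = ⟪e0, y1⟫ := ⟨_, rfl⟩
  obtain ⟨γ2, hγ2⟩ : ∃ t, t = ⟪e0, y2⟫ := ⟨_, rfl⟩
  obtain ⟨u1, hu1⟩ : ∃ u : E, u = y1 - γ1 • e0 := ⟨_, rfl⟩
  obtain ⟨a, ha⟩ : ∃ a, a = ‖u1‖ := ⟨_, rfl⟩
  have ha2 : p + q ≤ a ^ 2 := by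
    have := hQ 1 0 (-(γ1 * s⁻¹))
    have h2 : (1 : ℝ) • y1 + (0 : ℝ) • y2 + (-(γ1 * s⁻¹)) • x = u1 := by
      rw [hu1, he0, smul_smul]; module
    rw [h2, ← ha] at this
    linarith
  have ha0 : 0 < a := by
    have h1 : 0 ≤ a := ha ▸ norm_nonneg _
    rcases eq_or_lt_of_le h1 with h | h
    · rw [← h] at ha2; linarith
    · exact h
  obtain ⟨e1, he1⟩ : ∃ e1 : E, e1 = a⁻¹ • u1 := ⟨_, rfl⟩
  have n1 : ‖e1‖ = 1 := by
    rw [he1, norm_smul, norm_inv, Real.norm_of_nonneg ha0.le, ← ha, inv_mul_cancel₀ ha0.ne']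
  have i11 : ⟪e1, e1⟫ = 1 := by rw [real_inner_self_eq_norm_sq, n1]; norm_num
  have i01 : ⟪e0, e1⟫ = 0 := by
    rw [he1, hu1, real_inner_smul_right, inner_sub_right, real_inner_smul_right, i00, ← hγ1]; ring
  have i10 : ⟪e1, e0⟫ = 0 := by rw [real_inner_comm, i01]
  have hy1 : y1 = γ1 • e0 + a • e1 := by
    rw [he1, smul_smul, mul_inv_cancel₀ ha0.ne', one_smul, hu1]; abel
  obtain ⟨α, hα⟩ : ∃ t, t = ⟪e1, y2⟫ := ⟨_, rfl⟩
  obtain ⟨u2, hu2⟩ : ∃ u : E, u = y2 - γ2 • e0 - α • e1 := ⟨_, rfl⟩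
  obtain ⟨β, hβ⟩ : ∃ b, b = ‖u2‖ := ⟨_, rfl⟩
  have hβ2 : p * q + p * r + q * r ≤ (p + q) * β ^ 2 := by
    have := hQ (-(α * a⁻¹)) 1 ((α * a⁻¹ * γ1 - γ2) * s⁻¹)
    have h2 : (-(α * a⁻¹)) • y1 + (1 : ℝ) • y2 + ((α * a⁻¹ * γ1 - γ2) * s⁻¹) • x = u2 := by
      rw [hu2, he1, hu1, he0]; module
    rw [h2, ← hβ] at this
    exact quad_lower.trans (mul_le_mul_of_nonneg_left this hpq.le)
  have hβ0 : 0 < β := by
    have h1 : 0 ≤ β := hβ ▸ norm_nonneg _
    rcases eq_or_lt_of_le h1 with h | h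
    · rw [← h] at hβ2; linarith
    · exact h
  obtain ⟨e2, he2⟩ : ∃ e2 : E, e2 = β⁻¹ • u2 := ⟨_, rfl⟩
  have n2 : ‖e2‖ = 1 := by
    rw [he2, norm_smul, norm_inv, Real.norm_of_nonneg hβ0.le, ← hβ, inv_mul_cancel₀ hβ0.ne']
  have i02 : ⟪e0, e2⟫ = 0 := by
    rw [he2, hu2, real_inner_smul_right, inner_sub_right, inner_sub_right, real_inner_smul_right,
      real_inner_smul_right, i00, i01, ← hγ2]; ring
  have i12 : ⟪e1, e2⟫ = 0 := by
    rw [he2, hu2, real_inner_smul_right, inner_sub_right, inner_sub_right, real_inner_smul_right,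
      real_inner_smul_right, i11, i10, ← hα]; ring
  have hy2 : y2 = γ2 • e0 + α • e1 + β • e2 := by
    rw [he2, smul_smul, mul_inv_cancel₀ hβ0.ne', one_smul, hu2]; abel
  have hon : Orthonormal ℝ ![e0, e1, e2] := by
    simp only [orthonormal_vecCons_iff, n0, n1, n2, true_and, Fin.forall_fin_succ,
      Matrix.cons_val_zero, Matrix.cons_val_succ, IsEmpty.forall_iff, and_true, i01, i02, i12]
    exact Orthonormal.of_isEmpty _
  have haβ : √(p * q + p * r + q * r) ≤ a * β := by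
    apply Real.sqrt_le_iff.mpr
    refine ⟨by positivity, ?_⟩
    rw [mul_pow]
    exact hβ2.trans (mul_le_mul_of_nonneg_right ha2 (sq_nonneg _))
  have hse : 0 < √(p * q + p * r + q * r) := Real.sqrt_pos.mpr he
  have h1 : ∫ g, max (⟪x, g⟫ - max3 y1 y2 (-y1 - y2) g) 0 ∂stdGaussian E ≤
      ((s - γ1) + (s - γ2) + (s + γ1 + γ2)) ^ 3 / (18 * π * a * β * √(2 * π)) := by
    apply integral_posPart_le (f := fun g => ⟪x, g⟫ - max3 y1 y2 (-y1 - y2) g)
      ((continuous_const.inner continuous_id).sub (continuous_max3 _ _ _)).measurable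
      (div_nonneg (pow_nonneg (by linarith) 3) (by positivity))
    have h2 : ∀ g, ⟪x, g⟫ - max3 y1 y2 (-y1 - y2) g =
        min ((s - γ1) * ⟪e0, g⟫ - a * ⟪e1, g⟫)
          (min ((s - γ2) * ⟪e0, g⟫ - α * ⟪e1, g⟫ - β * ⟪e2, g⟫)
            ((s + γ1 + γ2) * ⟪e0, g⟫ + (a + α) * ⟪e1, g⟫ + β * ⟪e2, g⟫)) := by
      intro g
      have q0 : ⟪x, g⟫ = s * ⟪e0, g⟫ := by rw [← real_inner_smul_left, ← hxe]
      have q1 : ⟪y1, g⟫ = γ1 * ⟪e0, g⟫ + a * ⟪e1, g⟫ := by
        rw [← real_inner_smul_left, ← real_inner_smul_left, ← inner_add_left, ← hy1]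
      have q2 : ⟪y2, g⟫ = γ2 * ⟪e0, g⟫ + α * ⟪e1, g⟫ + β * ⟪e2, g⟫ := by
        rw [← real_inner_smul_left, ← real_inner_smul_left, ← real_inner_smul_left,
          ← inner_add_left, ← inner_add_left, ← hy2]
      simp only [max3, inner_sub_left, inner_neg_left, q0, q1, q2]
      rw [← min_sub_sub_left, ← min_sub_sub_left]
      congr 1
      · ring
      · congr 1 <;> ring
    have h3 := lintegral_frame3 hon (fun t => ENNReal.ofReal
      (min ((s - γ1) * t.1 - a * t.2.1) (min ((s - γ2) * t.1 - α * t.2.1 - β * t.2.2)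
        ((s + γ1 + γ2) * t.1 + (a + α) * t.2.1 + β * t.2.2)))) (by fun_prop)
    simp only [Matrix.cons_val_zero, Matrix.cons_val_one, Matrix.cons_val] at h3
    simp only [h2]
    rw [h3]
    exact core_small a α β _ _ _ ha0 hβ0 (by linarith)
  have hπ := Real.pi_pos
  calc √(2 * π) * ∫ g, max (⟪x, g⟫ - max3 y1 y2 (-y1 - y2) g) 0 ∂stdGaussian E
      ≤ √(2 * π) * (((s - γ1) + (s - γ2) + (s + γ1 + γ2)) ^ 3 / (18 * π * a * β * √(2 * π))) :=
        mul_le_mul_of_nonneg_left h1 hpos.le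
    _ = 3 * s ^ 3 / (2 * π * (a * β)) := by field_simp; ring
    _ ≤ 3 * s ^ 3 / (2 * π * √(p * q + p * r + q * r)) := by gcongr

end Crest.Agent.R215
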