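import Crest.Agent.R215.Adm
import Crest.Agent.R215.Small
import Crest.Agent.R215.NumMain

/-! The three-big-cells estimate. -/

open MeasureTheory ProbabilityTheory Real Module
open scoped RealInnerProductSpace

namespace Crest.Agent.R215

variable {E : Type*} [NormedAddCommGroup E] [InnerProductSpace ℝ E] {ι : Type*} [Fintype ι]

omit [Fintype ι] in
theorem norm_sum_sq_le {z : ι → E} (hob : ∀ i j, i ≠ j → ⟪z i, z j⟫ ≤ 0) (s : Finset ι) :
    ‖∑ i ∈ s, z i‖ ^ 2 ≤ ∑ i ∈ s, ‖z i‖ ^ 2 := by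
  classical
  rw [← real_inner_self_eq_norm_sq, sum_inner]
  refine Finset.sum_le_sum fun i hi => ?_
  rw [inner_sum, ← Finset.add_sum_erase _ _ hi, real_inner_self_eq_norm_sq]
  have : ∑ j ∈ s.erase i, ⟪z i, z j⟫ ≤ 0 :=
    Finset.sum_nonpos fun j hj => hob i j (Finset.ne_of_mem_erase hj).symm
  linarith

theorem laplace_lower [DecidableEq ι] {z : ι → E} (h0 : ∑ i, z i = 0)
    (hob : ∀ i j, i ≠ j → ⟪z i, z j⟫ ≤ 0) {i1 i2 i3 : ι} (h12 : i1 ≠ i2) (h13 : i1 ≠ i3)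
    (h23 : i2 ≠ i3) (γ : ι → ℝ) :
    -⟪z i1, z i2⟫ * (γ i1 - γ i2) ^ 2 + -⟪z i1, z i3⟫ * (γ i1 - γ i3) ^ 2 +
      -⟪z i2, z i3⟫ * (γ i2 - γ i3) ^ 2 ≤ ‖∑ i, γ i • z i‖ ^ 2 := by
  have hrow : ∀ i, ∑ j, ⟪z i, z j⟫ = 0 := fun i => by rw [← inner_sum, h0, inner_zero_right]
  have hcol : ∀ j, ∑ i, ⟪z i, z j⟫ = 0 := fun j => by rw [← sum_inner, h0, inner_zero_left]
  have hid : ∑ i, ∑ j, -⟪z i, z j⟫ * (γ i - γ j) ^ 2 = 2 * ‖∑ i, γ i • z i‖ ^ 2 := by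
    have e1 : ∀ i j, -⟪z i, z j⟫ * (γ i - γ j) ^ 2 =
        2 * (γ i * (γ j * ⟪z i, z j⟫)) - γ i ^ 2 * ⟪z i, z j⟫ - γ j ^ 2 * ⟪z i, z j⟫ := by
      intro i j; ring
    simp_rw [e1, Finset.sum_sub_distrib]
    have e2 : ∑ i, ∑ j, γ i ^ 2 * ⟪z i, z j⟫ = 0 := by
      simp_rw [← Finset.mul_sum, hrow]; simp
    have e3 : ∑ i, ∑ j, γ j ^ 2 * ⟪z i, z j⟫ = 0 := by
      rw [Finset.sum_comm]; simp_rw [← Finset.mul_sum, hcol]; simp
    rw [e2, e3, ← real_inner_self_eq_norm_sq, sum_inner]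
    simp_rw [inner_sum, real_inner_smul_left, real_inner_smul_right, Finset.mul_sum]
    simp
  have hnn : ∀ i j, 0 ≤ -⟪z i, z j⟫ * (γ i - γ j) ^ 2 := by
    intro i j
    rcases eq_or_ne i j with rfl | hij
    · simp
    · exact mul_nonneg (neg_nonneg.2 (hob i j hij)) (sq_nonneg _)
  have hsub : ∑ i ∈ ({i1, i2, i3} : Finset ι), ∑ j ∈ ({i1, i2, i3} : Finset ι),
      -⟪z i, z j⟫ * (γ i - γ j) ^ 2 ≤ ∑ i, ∑ j, -⟪z i, z j⟫ * (γ i - γ j) ^ 2 := by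
    refine le_trans (Finset.sum_le_sum fun i _ => ?_)
      (Finset.sum_le_sum_of_subset_of_nonneg (Finset.subset_univ _)
        fun i _ _ => Finset.sum_nonneg fun j _ => hnn i j)
    exact Finset.sum_le_sum_of_subset_of_nonneg (Finset.subset_univ _) fun j _ _ => hnn i j
  have m1 : i1 ∉ ({i2, i3} : Finset ι) := by simp [h12, h13]
  simp only [Finset.sum_insert m1, Finset.sum_pair h23] at hsub
  rw [hid, real_inner_comm (z i1) (z i2), real_inner_comm (z i1) (z i3),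
    real_inner_comm (z i2) (z i3)] at hsub
  nlinarith

variable [FiniteDimensional ℝ E] [MeasurableSpace E] [BorelSpace E]

theorem Adm.schemeA [DecidableEq ι] {z : ι → E} (hz : Adm z)
    (hob : ∀ i j, i ≠ j → ⟪z i, z j⟫ ≤ 0) {i1 i2 i3 : ι} (h12 : i1 ≠ i2) (h13 : i1 ≠ i3)
    (h23 : i2 ≠ i3) {s : ℝ} (hs0 : 0 ≤ s) (hs : s ^ 2 ≤ 3 / 25)
    (hsj : ∀ j ∈ ({i1, i2, i3} : Finset ι)ᶜ, ‖z j‖ ≤ s)
    (hτ : ∑ j ∈ ({i1, i2, i3} : Finset ι)ᶜ, ‖z j‖ ^ 2 ≤ 17 / 100)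
    (hl1 : 13 / 50 ≤ ‖z i1‖ ^ 2) (hl2 : 13 / 50 ≤ ‖z i2‖ ^ 2) (hl3 : 13 / 50 ≤ ‖z i3‖ ^ 2) :
    ‖z i1‖ ^ 2 + ‖z i2‖ ^ 2 + ‖z i3‖ ^ 2 + ∑ j ∈ ({i1, i2, i3} : Finset ι)ᶜ, ‖z j‖ ^ 2
      ≤ 9 / 4 := by
  set L : Finset ι := ({i1, i2, i3} : Finset ι)ᶜ with hL
  have m1 : i1 ∉ ({i2, i3} : Finset ι) := by simp [h12, h13]
  have hsplit : ∀ {M : Type _} [AddCommMonoid M] (f : ι → M),
      ∑ i, f i = f i1 + f i2 + f i3 + ∑ j ∈ L, f j := by
    intro M _ f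
    rw [← Finset.sum_add_sum_compl {i1, i2, i3}, Finset.sum_insert m1, Finset.sum_pair h23,
      ← add_assoc]
  have hsplitR : ∀ (f : ι → ℝ), ∑ i, f i = f i1 + f i2 + f i3 + ∑ j ∈ L, f j := by
    intro f
    rw [← Finset.sum_add_sum_compl {i1, i2, i3}, Finset.sum_insert m1, Finset.sum_pair h23,
      ← add_assoc]
  have hLne : ∀ j ∈ L, j ≠ i1 ∧ j ≠ i2 ∧ j ≠ i3 := by
    intro j hj
    simpa [hL] using hj
  obtain ⟨R, hR⟩ : ∃ R, R = ∑ j ∈ L, z j := ⟨_, rfl⟩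
  have h0 : z i1 + z i2 + z i3 + R = 0 := by rw [hR, ← hsplit z, hz.sum_eq_zero]
  have hρ : ∀ a, a ∉ L → 0 ≤ -⟪z a, R⟫ := by
    intro a ha
    rw [hR, inner_sum, neg_nonneg]
    exact Finset.sum_nonpos fun j hj => hob a j (fun h => ha (h ▸ hj))
  have hin : ∀ x : E, ⟪x, z i1⟫ + ⟪x, z i2⟫ + ⟪x, z i3⟫ + ⟪x, R⟫ = 0 := by
    intro x
    rw [← inner_add_right, ← inner_add_right, ← inner_add_right, h0, inner_zero_right]
  have q1 := hin (z i1)
  have q2 := hin (z i2)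
  have q3 := hin (z i3)
  have q4 := hin R
  rw [real_inner_self_eq_norm_sq] at q1 q2 q3 q4
  rw [real_inner_comm (z i1) (z i2)] at q2
  rw [real_inner_comm (z i1) (z i3), real_inner_comm (z i2) (z i3)] at q3
  rw [real_inner_comm (z i1) R, real_inner_comm (z i2) R, real_inner_comm (z i3) R] at q4
  have hRτ : ‖R‖ ^ 2 ≤ ∑ j ∈ L, ‖z j‖ ^ 2 := hR ▸ norm_sum_sq_le hob L
  have n1 : ‖z i1‖ ^ 2 ≤ 1 := pow_le_one₀ (norm_nonneg _) (hz.norm_le_one _)
  have n2 : ‖z i2‖ ^ 2 ≤ 1 := pow_le_one₀ (norm_nonneg _) (hz.norm_le_one _)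
  have n3 : ‖z i3‖ ^ 2 ≤ 1 := pow_le_one₀ (norm_nonneg _) (hz.norm_le_one _)
  refine schemeA_num (w1 := -⟪z i2, z i3⟫) (w2 := -⟪z i1, z i3⟫) (w3 := -⟪z i1, z i2⟫)
    (ρ1 := -⟪z i1, R⟫) (ρ2 := -⟪z i2, R⟫) (ρ3 := -⟪z i3, R⟫) (s := s)
    (neg_nonneg.2 (hob _ _ h23)) (neg_nonneg.2 (hob _ _ h13)) (neg_nonneg.2 (hob _ _ h12))
    (hρ _ (by simp [hL])) (hρ _ (by simp [hL])) (hρ _ (by simp [hL]))
    (by linarith) hτ (by linarith) (by linarith) (by linarith) hl1 hl2 hl3 n1 n2 n3 hs0 hs ?_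
  intro he
  obtain ⟨y1, hy1⟩ : ∃ y, y = z i1 + (1 / 3 : ℝ) • R := ⟨_, rfl⟩
  obtain ⟨y2, hy2⟩ : ∃ y, y = z i2 + (1 / 3 : ℝ) • R := ⟨_, rfl⟩
  have hy3 : -y1 - y2 = z i3 + (1 / 3 : ℝ) • R := by
    have : z i3 = -(z i1) - z i2 - R := by rw [← sub_eq_zero, ← h0]; abel
    rw [hy1, hy2, this]; module
  set M := max3 y1 y2 (-y1 - y2) with hM
  have iM : Integrable M (stdGaussian E) := integrable_max3 _ _ _
  have ih : ∀ j, Integrable (fun g => max (⟪z j, g⟫ - M g) 0) (stdGaussian E) := fun j =>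
    ((integrable_inner_gauss _).sub iM).sup (integrable_const 0)
  have h := hz (fun i => if i ∈ L then z i else z i + (1 / 3 : ℝ) • R)
    (fun g => M g + ∑ j ∈ L, max (⟪z j, g⟫ - M g) 0)
    (iM.add (integrable_finsetSum _ fun i _ => ih i)) (by
      intro i g
      have hnn : 0 ≤ ∑ j ∈ L, max (⟪z j, g⟫ - M g) 0 :=
        Finset.sum_nonneg fun _ _ => le_max_right _ _
      by_cases hi : i ∈ L
      · simp only [if_pos hi]
        have h1 : max (⟪z i, g⟫ - M g) 0 ≤ ∑ j ∈ L, max (⟪z j, g⟫ - M g) 0 :=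
          Finset.single_le_sum (f := fun i => max (⟪z i, g⟫ - M g) 0)
            (fun _ _ => le_max_right _ _) hi
        have h2 := le_max_left (⟪z i, g⟫ - M g) 0
        linarith
      · simp only [if_neg hi]
        have hi' : i = i1 ∨ i = i2 ∨ i = i3 := by
          by_contra hc
          push Not at hc
          exact hi (by simp [hL, hc.1, hc.2.1, hc.2.2])
        have : ⟪z i + (1 / 3 : ℝ) • R, g⟫ ≤ M g := by
          rcases hi' with rfl | rfl | rfl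
          · rw [← hy1]; exact le_max_left _ _
          · rw [← hy2]; exact (le_max_left _ _).trans (le_max_right _ _)
          · rw [← hy3]; exact (le_max_right _ _).trans (le_max_right _ _)
        linarith)
  rw [integral_add iM (integrable_finsetSum _ fun i _ => ih i),
    integral_finsetSum _ (fun i _ => ih i), mul_add, Finset.mul_sum, hsplitR,
    if_neg (by simp [hL]), if_neg (by simp [hL]), if_neg (by simp [hL]),
    Finset.sum_congr rfl (fun j hj => by rw [if_pos hj, real_inner_self_eq_norm_sq])] at h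
  simp only [inner_add_right, real_inner_smul_right, real_inner_self_eq_norm_sq] at h
  have hper := integral_max3_le y1 y2 (-y1 - y2)
  have d1 : ‖y2 - (-y1 - y2)‖ = √(‖z i2‖ ^ 2 + ‖z i3‖ ^ 2 + 2 * -⟪z i2, z i3⟫) := by
    rw [hy3, hy2, add_sub_add_right_eq_sub, ← Real.sqrt_sq (norm_nonneg (z i2 - z i3)),
      norm_sub_sq_real]
    congr 1; ring
  have d2 : ‖y1 - (-y1 - y2)‖ = √(‖z i1‖ ^ 2 + ‖z i3‖ ^ 2 + 2 * -⟪z i1, z i3⟫) := by
    rw [hy3, hy1, add_sub_add_right_eq_sub, ← Real.sqrt_sq (norm_nonneg (z i1 - z i3)),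
      norm_sub_sq_real]
    congr 1; ring
  have d3 : ‖y1 - y2‖ = √(‖z i1‖ ^ 2 + ‖z i2‖ ^ 2 + 2 * -⟪z i1, z i2⟫) := by
    rw [hy2, hy1, add_sub_add_right_eq_sub, ← Real.sqrt_sq (norm_nonneg (z i1 - z i2)),
      norm_sub_sq_real]
    congr 1; ring
  rw [d1, d2, d3] at hper
  set e := -⟪z i2, z i3⟫ * -⟪z i1, z i3⟫ + -⟪z i2, z i3⟫ * -⟪z i1, z i2⟫ +
    -⟪z i1, z i3⟫ * -⟪z i1, z i2⟫ with hedef
  have hee : -⟪z i1, z i2⟫ * -⟪z i1, z i3⟫ + -⟪z i1, z i2⟫ * -⟪z i2, z i3⟫ +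
      -⟪z i1, z i3⟫ * -⟪z i2, z i3⟫ = e := by rw [hedef]; ring
  have hse : 0 < √e := Real.sqrt_pos.mpr he
  have hπ := Real.pi_pos
  have hsm : ∀ j ∈ L, √(2 * π) * ∫ g, max (⟪z j, g⟫ - M g) 0 ∂stdGaussian E ≤
      3 * s / (2 * π * √e) * ‖z j‖ ^ 2 := by
    intro j hj
    obtain ⟨j1, j2, j3⟩ := hLne j hj
    have hb := smallBall (z j) y1 y2 (neg_nonneg.2 (hob _ _ h12)) (neg_nonneg.2 (hob _ _ h13))
      (neg_nonneg.2 (hob _ _ h23)) (by rw [hee]; exact he) (by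
        intro α1 α2 β
        have hl := laplace_lower hz.sum_eq_zero hob h12 h13 h23
          (fun i => if i = i1 then α1 else if i = i2 then α2 else if i = i3 then 0 else
            (α1 + α2) / 3 + if i = j then β else 0)
        have hsum : ∑ i, (if i = i1 then α1 else if i = i2 then α2 else if i = i3 then 0 else
            (α1 + α2) / 3 + if i = j then β else 0) • z i = α1 • y1 + α2 • y2 + β • z j := by
          rw [hsplit]
          have e1 : ∑ l ∈ L, (if l = i1 then α1 else if l = i2 then α2 else if l = i3 then 0 else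
              (α1 + α2) / 3 + if l = j then β else 0) • z l =
              ((α1 + α2) / 3) • R + β • z j := by
            rw [hR, Finset.smul_sum]
            have e2 : β • z j = ∑ l ∈ L, (if l = j then β else 0) • z l := by
              simp [ite_smul, hj]
            rw [e2, ← Finset.sum_add_distrib]
            refine Finset.sum_congr rfl fun l hl => ?_
            obtain ⟨l1, l2, l3⟩ := hLne l hl
            rw [if_neg l1, if_neg l2, if_neg l3, add_smul]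
          rw [e1, hy1, hy2]
          simp only [if_true, h12.symm, h13.symm, h23.symm, if_false]
          module
        rw [hsum] at hl
        simpa [h12.symm, h13.symm, h23.symm] using hl)
    rw [hee] at hb
    refine hb.trans ?_
    have h3 : ‖z j‖ ^ 3 ≤ s * ‖z j‖ ^ 2 := by
      rw [pow_succ', sq]
      exact mul_le_mul_of_nonneg_right (hsj j hj) (by positivity)
    calc 3 * ‖z j‖ ^ 3 / (2 * π * √e) ≤ 3 * (s * ‖z j‖ ^ 2) / (2 * π * √e) := by gcongr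
      _ = 3 * s / (2 * π * √e) * ‖z j‖ ^ 2 := by ring
  have hsm2 := Finset.sum_le_sum hsm
  rw [← Finset.mul_sum L _ (3 * s / (2 * π * √e))] at hsm2
  rw [← hM] at hper
  have e4 : 3 * s / (2 * π * √e) * ∑ j ∈ L, ‖z j‖ ^ 2 =
      3 * s * (∑ j ∈ L, ‖z j‖ ^ 2) / (2 * π * √e) := by ring
  linarith

end Crest.Agent.R215
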